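import Crest.Agent.X261.Two.Del

/-!
# Row 261, package TWO (helper15), file `Kes`

(K): if `Ξ (x, y i) < 0` for finitely many `i`, one swept measure overlaps all its transports.
-/

set_option autoImplicit false
set_option linter.dupNamespace false

open Set Filter Topology Finset MeasureTheory

noncomputable section

namespace Crest.Agent.X261.Two

open Crest.Agent.X261.Pole

variable {M : Type*} [MeasurableSpace M]

/-- swept measures `xi f = MA 0 - 1_{f = 0} MA f` -/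
structure MS (S : LS M) where
  xi : (M → ℝ) → Measure M
  xi_fin : ∀ f ∈ S.Q, IsFiniteMeasure (xi f)
  xi_anti : ∀ f ∈ S.Q, ∀ g ∈ S.Q, f ≤ g → xi g ≤ xi f
  k5 : ∀ a ∈ S.Q, ∀ s : ℝ, 0 ≤ s → S.D a - S.D (S.P 0 a s) ≤ s * (xi a).real univ
  k1 : ∀ a ∈ S.Q, ∀ b ∈ S.Q, ∀ s : ℝ, 0 ≤ s →
    s * ((xi (S.P b a s)).real univ - (xi b).real univ) ≤ S.D (S.P b a 0) - S.D (S.P b a s)
  xi_zero : (xi 0).real univ = 0

theorem exists_common {α β γ : Measure M} [IsFiniteMeasure γ] (h₁ : α ≤ γ) (h₂ : β ≤ γ) :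
    ∃ ν : Measure M, ν ≤ α ∧ ν ≤ β ∧ α.real univ + β.real univ - γ.real univ ≤ ν.real univ := by
  have := isFiniteMeasure_of_le γ h₁
  have := isFiniteMeasure_of_le γ h₂
  have e := Measure.sub_add_cancel_of_le h₂
  refine ⟨α - (γ - β), Measure.sub_le, Measure.sub_le_of_le_add (by rwa [add_comm, e]), ?_⟩
  have h3 : α ≤ α - (γ - β) + (γ - β) := Measure.sub_le_iff_le_add.1 le_rfl
  have h4 : α.real univ ≤ (α - (γ - β) + (γ - β)).real univ :=
    ENNReal.toReal_mono (measure_ne_top _ _) (h3 univ)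
  have h5 : (γ - β + β).real univ = γ.real univ := by rw [e]
  rw [measureReal_add_apply] at h4 h5
  linarith

variable {S : LS M} {X Y : PF S} {k : ℝ} {p : ℕ} {l T t : ℝ} {m : ℕ} {a : M → ℝ}

omit [MeasurableSpace M] in
/-- the cost against any feasible competitor -/
theorem cost_le_of_feas {F : Set (M → ℝ)} (hF : S.Cons F) {v f : M → ℝ} (hv : v ∈ S.Q)
    (hf : f ∈ S.Q) (hfF : f ∈ F) : S.cost v f ≤ S.dp F v - S.dp F 0 := by
  have : S.cost v f + S.dp F 0 ≤ S.dp F v := hF.le_dp hv fun g k1 k2 k3 => by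
    have e1 := LS.supmod k1 hf
    have e2 : S.dp F 0 ≤ S.D (g ⊔ f) :=
      LS.dp_le (LS.sup_mem k1 hf) (S.nonpos _ (LS.sup_mem k1 hf)) (hF.sup g k3 f hfF)
    have e3 := LS.cost_anti k1 hv hf k2
    unfold LS.cost at e3 ⊢
    linarith
  linarith

/-- a potential overlaps a shifted background up to its cost -/
theorem MS.overlap_one (W : MS S) (ha : a ∈ S.Q) {ψ : M → ℝ} (hψ : ψ ∈ S.Q) {σ : ℝ} (hσ : 0 < σ) :
    ∃ ν : Measure M, ν ≤ W.xi ψ ∧ ν ≤ W.xi (S.P 0 a σ) ∧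
      (W.xi (S.P 0 a σ)).real univ - S.cost a ψ / σ ≤ ν.real univ := by
  have hw := S.P_mem ψ hψ a ha σ hσ.le
  have := W.xi_fin _ hw
  obtain ⟨ν, h1, h2, h3⟩ := exists_common (W.xi_anti _ hw ψ hψ (S.P_le ψ hψ a ha σ hσ.le))
    (W.xi_anti _ hw _ (sh_mem ha hσ.le) (le_sh ha hσ.le hw (S.P_le' ψ hψ a ha σ hσ.le)))
  refine ⟨ν, h1, h2, le_trans ?_ h3⟩
  have h4 := W.k1 a ha ψ hψ σ hσ.le
  have h5 := S.anti _ hw ψ hψ (S.P_le ψ hψ a ha σ hσ.le)
  have h6 : S.cost a ψ = S.D (S.P ψ a 0) - S.D ψ := by rw [LS.cost, LS.mn_comm ha hψ]; rfl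
  have h7 : (W.xi (S.P ψ a σ)).real univ - (W.xi ψ).real univ ≤ S.cost a ψ / σ := by
    rw [le_div_iff₀ hσ]; linarith
  linarith

theorem MS.overlap_two (W : MS S) (ha : a ∈ S.Q) {ψ χ : M → ℝ} (hψ : ψ ∈ S.Q) (hχ : χ ∈ S.Q)
    {σ : ℝ} (hσ : 0 < σ) : ∃ ν : Measure M, ν ≤ W.xi ψ ∧ ν ≤ W.xi χ ∧
      (W.xi (S.P 0 a σ)).real univ - (S.cost a ψ + S.cost a χ) / σ ≤ ν.real univ := by
  obtain ⟨ν₁, h1, h2, h3⟩ := W.overlap_one ha hψ hσ
  obtain ⟨ν₂, g1, g2, g3⟩ := W.overlap_one ha hχ hσ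
  have := W.xi_fin _ (sh_mem ha hσ.le)
  obtain ⟨ν, e1, e2, e3⟩ := exists_common h2 g2
  exact ⟨ν, e1.trans h1, e2.trans g1, by rw [add_div]; linarith⟩

/-- the half way potential of a good background has a large mass -/
theorem MS.mass_half (W : MS S) (hX : X.Asy k p) (hY : Y.Asy k p) (hl : 0 < l) (hm : 0 < m)
    (hT : 0 < T) (ha : a ∈ Adm S T) (h : br X Y k p l (2 * m) T a ≤ t * T) :
    2 * kc k p (l / 2) / l - 4 * t ≤ (W.xi (S.P 0 a (T / 2))).real univ := by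
  have hm2 : 0 < 2 * m := by omega
  have hm' : (m : ℝ) ≠ 0 := by positivity
  have hk := hX.k_nonneg
  have h2 := half_pos hT
  have e0 : (m : ℝ) * (T / (2 * m : ℕ)) = T / 2 := by push_cast; field_simp
  have e1 := tele hX ha.1 (d := T / (2 * m : ℕ)) (by positivity) (c := lev l (2 * m)) m
    fun j hj => lev_pos hl (by omega)
  rw [e0] at e1
  have e2 : ∑ j ∈ range m, X.cst k p (lev l (2 * m) j) (S.P 0 a (j * (T / (2 * m : ℕ)))) ≤
      sc X k p l (2 * m) T a :=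
    sum_le_sum_of_subset_of_nonneg (range_mono (by omega)) fun j hj _ =>
      hX.cst_nonneg (lev_pos hl (mem_range.1 hj)) (sh_mem ha.1 (step_nonneg hT.le _ j))
  have e3 := sc_le_br (X := X) hY hl hm2 hT.le ha
  have e4 := def_le_br (m := 2 * m) hX hY hl hT.le ha.1
  have e5 := kc_le_sum (p := p) hk hl hm2 (show m ≤ 2 * m by omega)
  have e6 : lev l (2 * m) m = l / 2 := by unfold lev; push_cast; field_simp; ring
  rw [e6] at e5
  have e7 : kap k p l (2 * m) * T = (∑ j ∈ range m, mc k p (lev l (2 * m) j)) * (T / (2 * m : ℕ)) +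
      (∑ j ∈ Ico m (2 * m), mc k p (lev l (2 * m) j)) * (T / (2 * m : ℕ)) := by
    rw [← add_mul, sum_range_add_sum_Ico _ (show m ≤ 2 * m by omega), kap]; ring
  have e8 : kc k p (l / 2) / l * T ≤
      (∑ j ∈ Ico m (2 * m), mc k p (lev l (2 * m) j)) * (T / (2 * m : ℕ)) := by
    have := mul_le_mul_of_nonneg_right e5 (show 0 ≤ T / l by positivity)
    rw [mul_assoc, show l / (2 * m : ℕ) * (T / l) = T / (2 * m : ℕ) by field_simp] at this
    rw [div_mul_eq_mul_div, mul_div_assoc]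
    exact this
  have hU := sh_mem ha.1 h2.le
  have e9 := W.k5 _ hU (T / 2) h2.le
  rw [sh_eq_zero hU h2.le (le_sh_of ha.1 h2.le h2.le fun x => by linarith [ha.2 x]), S.D_zero]
    at e9
  refine le_of_mul_le_mul_left ?_ h2
  have e10 : T / 2 * (2 * kc k p (l / 2) / l - 4 * t) = kc k p (l / 2) / l * T - 2 * (t * T) := by
    ring
  rw [e10]
  linarith

/-- feasible potentials of almost minimal mass -/
theorem MS.ev_exists_feas (W : MS S) (hX : X.Asy k p) (hl : 0 < l) {ε : ℝ} (hε : 0 < ε) :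
    ∀ᶠ s in atTop, ∃ ψ ∈ S.Q, ψ ∈ X.F s (l * s) ∧ (W.xi ψ).real univ ≤ mc k p l + ε := by
  have h1 := (hX.tendsto_diff hl S.zero_mem 1 0).eventually
    (gt_mem_nhds (lt_add_of_pos_right _ (half_pos hε)))
  filter_upwards [h1, eventually_gt_atTop X.s0] with s e1 hs
  obtain ⟨f, f1, -, f3, f4⟩ := (X.cons s hs (l * s + 1)).near S.zero_mem (half_pos hε)
  have hψ := sh_mem f1 zero_le_one
  have hF : S.P 0 f 1 ∈ X.F s (l * s) := by
    simpa using X.shift s hs _ 1 f f3 _ (sh_le f1 zero_le_one)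
  refine ⟨_, hψ, hF, ?_⟩
  have e2 := W.k1 f f1 0 S.zero_mem 1 zero_le_one
  rw [sh_zero f1, W.xi_zero] at e2
  have e3 : X.Φ 0 s (l * s) ≤ S.D (S.P 0 f 1) := LS.dp_le hψ (S.nonpos _ hψ) hF
  simp only [PF.Φ, add_zero, sub_zero, mul_one] at e1 e3
  linarith

omit [MeasurableSpace M] in
theorem cst_le_sc (hX : X.Asy k p) (hl : 0 < l) (hm : 0 < m) (hT : 0 ≤ T) (ha : a ∈ S.Q) :
    X.cst k p l a ≤ sc X k p l m T a := by
  have := single_le_sum (f := fun j => X.cst k p (lev l m j) (S.P 0 a (j * (T / m))))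
    (fun j hj => hX.cst_nonneg (lev_pos hl (mem_range.1 hj)) (sh_mem ha (step_nonneg hT m j)))
    (mem_range.2 hm)
  simpa [lev_zero, sh_zero ha, sc] using this

/-- **(K)**.  `τ i` transports the constraints of `X` to those of `Y i` (`f ↦ f ∘ gᵢ⁻¹`). -/
theorem MS.kesten (W : MS S) {ι : Type*} [Finite ι] {Y : ι → PF S} (hX : X.Asy k p)
    (hY : ∀ i, (Y i).Asy k p) (hl : 0 < l) (hm : 0 < m) {τ : ι → (M → ℝ) → M → ℝ}
    (hτ : ∀ i, ∀ f ∈ S.Q, τ i f ∈ S.Q)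
    (hτF : ∀ i, ∀ᶠ s in atTop, ∀ f ∈ S.Q, f ∈ X.F s (l * s) → τ i f ∈ (Y i).F s (l * s))
    (hXi : ∀ i, Xi X (Y i) k p l (2 * m) t < 0) {ε : ℝ} (hε : 0 < ε) :
    ∃ ψ ∈ S.Q, (W.xi ψ).real univ ≤ mc k p l + ε ∧ ∀ i, ∃ ν : Measure M, ν ≤ W.xi ψ ∧
      ν ≤ W.xi (τ i ψ) ∧ 2 * kc k p (l / 2) / l - 8 * t ≤ ν.real univ := by
  have hm2 : 0 < 2 * m := by omega
  have key : ∀ i, ∀ᶠ s in atTop, ∀ ψ ∈ S.Q, ψ ∈ X.F s (l * s) → ∃ ν : Measure M, ν ≤ W.xi ψ ∧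
      ν ≤ W.xi (τ i ψ) ∧ 2 * kc k p (l / 2) / l - 8 * t ≤ ν.real univ := fun i => by
    obtain ⟨T, hT, h1⟩ := exists_of_Xi_lt (r := 0) (hXi i)
    obtain ⟨a, ha, h2⟩ := exists_br_lt hT (show del X (Y i) k p l (2 * m) T < t * T by linarith)
    have hT' : 0 < T := hT.lt_of_ne fun h => by
      have := br_nonneg hX (hY i) hl hm2 hT ha
      rw [← h] at h2 this; linarith
    have c1 := ((cst_le_sc hX hl hm2 hT ha.1).trans (sc_le_br (hY i) hl hm2 hT ha)).trans_lt h2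
    have c2 := ((cst_le_sc (hY i) hl hm2 hT ha.1).trans (sc_le_br' hX hl hm2 hT ha)).trans_lt h2
    filter_upwards [(hX.tendsto_cst0 hl ha.1).eventually (gt_mem_nhds c1),
      ((hY i).tendsto_cst0 hl ha.1).eventually (gt_mem_nhds c2), hτF i,
      eventually_gt_atTop X.s0, eventually_gt_atTop (Y i).s0] with s e1 e2 e3 e4 e5 ψ hψ hF
    obtain ⟨ν, n1, n2, n3⟩ := W.overlap_two ha.1 hψ (hτ i ψ hψ) (half_pos hT')
    refine ⟨ν, n1, n2, le_trans ?_ n3⟩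
    have d1 := cost_le_of_feas (X.cons s e4 _) ha.1 hψ hF
    have d2 := cost_le_of_feas ((Y i).cons s e5 _) ha.1 (hτ i ψ hψ) (e3 ψ hψ hF)
    have d3 := W.mass_half hX (hY i) hl hm hT' ha h2.le
    have d4 : (S.cost a ψ + S.cost a (τ i ψ)) / (T / 2) ≤ 4 * t := by
      rw [div_le_iff₀ (half_pos hT')]
      simp only [PF.Φ] at e1 e2
      linarith
    linarith
  obtain ⟨s, h1, ψ, hψ, hF, hμ⟩ := ((eventually_all.2 key).and (W.ev_exists_feas hX hl hε)).exists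
  exact ⟨ψ, hψ, hμ, fun i => h1 i ψ hψ hF⟩

/-- the overlap constant: with `t = 3 mc(l) / m'`, `m' ≥ 24 (p+1) 2^(p+1)` -/
theorem kesten_const (hk : 0 ≤ k) (hl : 0 < l) {m' : ℝ} (hm : 24 * (p + 1) * 2 ^ (p + 1) ≤ m') :
    mc k p l / ((p + 1) * 2 ^ (p + 1)) ≤ 2 * kc k p (l / 2) / l - 8 * (3 * mc k p l / m') := by
  have h0 := mc_nonneg hk p hl.le
  have hp : (0 : ℝ) < (p + 1) * 2 ^ (p + 1) := by positivity
  have h1 : 2 * kc k p (l / 2) / l = 2 * (mc k p l / ((p + 1) * 2 ^ (p + 1))) := by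
    unfold kc mc; rw [div_pow]; field_simp; ring
  have h2 : 8 * (3 * mc k p l / m') ≤ mc k p l / ((p + 1) * 2 ^ (p + 1)) := by
    rw [show 8 * (3 * mc k p l / m') = mc k p l / (m' / 24) by field_simp; ring]
    exact div_le_div_of_nonneg_left h0 hp (by linarith)
  linarith

end Crest.Agent.X261.Two
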