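import Crest.Agent.X261.Two.DS

/-!
# Row 261, package TWO (helper15), file `Sel`

Plurisubharmonic variation of `dep` and `JJ` along admissible families:
`Fam.psh_JJ`, `Fam.psh_dep`.
-/

set_option autoImplicit false
set_option linter.dupNamespace false

open Set Filter Topology Metric MeasureTheory

noncomputable section

namespace Crest.Agent.X261.Two

open Crest.Agent.R275.FL884 (DiscIn)
open Crest.Agent.X261.Psh

variable {M : Type*} [TopologicalSpace M] {S : DS M}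

/-- uniform convergence, in the form used by `DS.tendsto_D` -/
def UC {ι : Type*} (l : Filter ι) (f : ι → M → ℝ) (g : M → ℝ) : Prop :=
  ∀ ε > (0 : ℝ), ∀ᶠ i in l, ∀ x, |f i x - g x| ≤ ε

omit [TopologicalSpace M] in
theorem UC.sup {ι : Type*} {l : Filter ι} {f f' : ι → M → ℝ} {g g' : M → ℝ} (h : UC l f g)
    (h' : UC l f' g') : UC l (fun i => f i ⊔ f' i) (g ⊔ g') := fun ε hε => by
  filter_upwards [h ε hε, h' ε hε] with i h1 h2 x
  exact (abs_max_sub_max_le_max _ _ _ _).trans (max_le (h1 x) (h2 x))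

omit [TopologicalSpace M] in
theorem UC.const {ι : Type*} (l : Filter ι) (g : M → ℝ) : UC l (fun _ => g) g :=
  fun ε hε => Eventually.of_forall fun _ x => by simpa using hε.le

omit [TopologicalSpace M] in
theorem UC.of_tendsto {ι : Type*} {l : Filter ι} {s : ι → ℝ} {t : ℝ} (h : Tendsto s l (𝓝 t)) :
    UC l (fun i (_ : M) => s i) fun _ => t := fun ε hε => by
  filter_upwards [Metric.tendsto_nhds.1 h ε hε] with i hi _ using le_of_lt hi

theorem UC.sum {ι κ : Type*} [Fintype κ] {l : Filter ι} {β : κ → M → ℝ} (hβ : ∀ k, β k ∈ S.Q)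
    {ρ : κ → ι → ℝ} {r : κ → ℝ} (h : ∀ k, Tendsto (ρ k) l (𝓝 (r k))) :
    UC l (fun i => ∑ k, ρ k i • β k) (∑ k, r k • β k) := fun ε hε => by
  obtain ⟨K, T, -, hT, hS⟩ := DS.exists_SB_fin hβ
  have t : Tendsto (fun i => ∑ k, |ρ k i - r k| * T) l (𝓝 (∑ k, |r k - r k| * T)) :=
    tendsto_finsetSum _ fun k _ => ((h k).sub tendsto_const_nhds).abs.mul_const T
  simp only [sub_self, abs_zero, zero_mul, Finset.sum_const_zero] at t
  filter_upwards [t.eventually (gt_mem_nhds hε)] with i hi x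
  simp only [Finset.sum_apply, Pi.smul_apply, smul_eq_mul]
  rw [← Finset.sum_sub_distrib]
  refine (Finset.abs_sum_le_sum_abs _ _).trans (le_trans (Finset.sum_le_sum fun k _ => ?_) hi.le)
  rw [← sub_mul, abs_mul]
  refine mul_le_mul_of_nonneg_left (abs_le.2 ⟨(hS k).2 x, ?_⟩) (abs_nonneg _)
  exact le_trans (S.nonpos _ (hβ k) x) hT

theorem DS.tendsto_D3 {ι : Type*} {l : Filter ι} {K : Set M} (hK : IsCompact K) {T : ℝ}
    {f g : ι → M → ℝ} {s : ι → ℝ} {f₀ g₀ : M → ℝ} {s₀ : ℝ}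
    (h : ∀ᶠ i in l, f i ∈ S.Q ∧ DS.SB K T (f i) ∧ g i ∈ S.Q ∧ DS.SB K T (g i) ∧ 0 ≤ s i)
    (hf : f₀ ∈ S.Q) (hf' : DS.SB K T f₀) (hg : g₀ ∈ S.Q) (hg' : DS.SB K T g₀) (hs : 0 ≤ s₀)
    (uf : UC l f f₀) (ug : UC l g g₀) (us : Tendsto s l (𝓝 s₀)) :
    Tendsto (fun i => S.D ((f i ⊔ g i) ⊔ fun _ => -s i)) l
      (𝓝 (S.D ((f₀ ⊔ g₀) ⊔ fun _ => -s₀))) :=
  DS.tendsto_D hK
    (h.mono fun _ hi => ⟨S.tr_mem _ (S.sup_mem _ hi.1 _ hi.2.2.1) _ hi.2.2.2.2,
      (hi.2.1.sup hi.2.2.2.1).tr hi.2.2.2.2⟩)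
    (S.tr_mem _ (S.sup_mem _ hf _ hg) _ hs) ((hf'.sup hg').tr hs)
    ((uf.sup ug).sup (UC.of_tendsto us.neg))

theorem DS.tendsto_val {ι : Type*} {l : Filter ι} {K : Set M} (hK : IsCompact K) {T : ℝ}
    {f g : ι → M → ℝ} {s : ι → ℝ} {f₀ g₀ : M → ℝ} {s₀ : ℝ}
    (h : ∀ᶠ i in l, f i ∈ S.Q ∧ DS.SB K T (f i) ∧ g i ∈ S.Q ∧ DS.SB K T (g i) ∧ 0 ≤ s i)
    (hf : f₀ ∈ S.Q) (hf' : DS.SB K T f₀) (hg : g₀ ∈ S.Q) (hg' : DS.SB K T g₀) (hs : 0 ≤ s₀)
    (uf : UC l f f₀) (ug : UC l g g₀) (us : Tendsto s l (𝓝 s₀)) :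
    Tendsto (fun i => S.val (f i) (g i) (s i)) l (𝓝 (S.val f₀ g₀ s₀)) :=
  ((DS.tendsto_D hK (h.mono fun _ hi => ⟨hi.1, hi.2.1⟩) hf hf' uf).add
    (DS.tendsto_D hK (h.mono fun _ hi => ⟨hi.2.2.1, hi.2.2.2.1⟩) hg hg' ug)).sub
    (DS.tendsto_D3 hK h hf hf' hg hg' hs uf ug us)

theorem DS.exists_SB4 {a b c d : M → ℝ} (ha : a ∈ S.Q) (hb : b ∈ S.Q) (hc : c ∈ S.Q)
    (hd : d ∈ S.Q) : ∃ K T, IsCompact K ∧ 0 ≤ T ∧ DS.SB K T a ∧ DS.SB K T b ∧ DS.SB K T c ∧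
      DS.SB K T d := by
  obtain ⟨K, T, hK, hT, h⟩ := DS.exists_SB_fin (S := S) (β := ![a, b, c, d])
    (fun i => by fin_cases i <;> assumption)
  exact ⟨K, T, hK, hT, h 0, h 1, h 2, h 3⟩

omit [TopologicalSpace M] in
theorem DS.SB.seg {K : Set M} {T : ℝ} {f b : M → ℝ} (hf : DS.SB K T f) (hb : DS.SB K T b) {θ : ℝ}
    (h0 : 0 ≤ θ) (h1 : θ ≤ 1) : DS.SB K T ((1 - θ) • f + θ • b) := by
  have := DS.SB.sum (β := ![f, b]) (ρ := ![1 - θ, θ]) (K := K) (T := T)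
    (fun i => by fin_cases i <;> assumption) (fun i => by fin_cases i <;> simp <;> linarith)
    (by simp)
  simpa using this

theorem UC.seg {f b : M → ℝ} (hf : f ∈ S.Q) (hb : b ∈ S.Q) :
    UC (𝓝[>] (0 : ℝ)) (fun θ => (1 - θ) • f + θ • b) f := by
  have h0 : Tendsto (fun θ : ℝ => θ) (𝓝[>] 0) (𝓝 0) := tendsto_nhdsWithin_of_tendsto_nhds tendsto_id
  have := UC.sum (S := S) (l := 𝓝[>] (0 : ℝ)) (β := ![f, b]) (ρ := ![fun θ => 1 - θ, fun θ => θ])
    (r := ![1, 0]) (fun i => by fin_cases i <;> assumption) (fun i => by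
      fin_cases i
      · simpa using h0.const_sub 1
      · simpa using h0)
  simpa using this

/-- a near-optimal pair that stays feasible and near-optimal in a neighbourhood -/
theorem exists_local {X : Type*} {l : Filter X} {F G : X → Set (M → ℝ)} {F₀ G₀ : Set (M → ℝ)}
    (hF : F₀ ⊆ S.Q) (hG : G₀ ⊆ S.Q) {bF bG : M → ℝ} (hbF : bF ∈ F₀) (hbG : bG ∈ G₀)
    (h1 : ∀ f ∈ F₀, ∀ θ : ℝ, 0 < θ → θ ≤ 1 → ∀ᶠ e in l, (1 - θ) • f + θ • bF ∈ F e)
    (h2 : ∀ g ∈ G₀, ∀ θ : ℝ, 0 < θ → θ ≤ 1 → ∀ᶠ e in l, (1 - θ) • g + θ • bG ∈ G e)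
    {s : X → ℝ} {s₀ : ℝ} (hs : Tendsto s l (𝓝 s₀)) (hs0 : 0 ≤ s₀) (hs' : ∀ᶠ e in l, 0 ≤ s e)
    {c : ℝ} (hc : S.JJ F₀ G₀ s₀ < c) :
    ∃ f ∈ S.Q, ∃ g ∈ S.Q, ∀ᶠ e in l, f ∈ F e ∧ g ∈ G e ∧ S.val f g (s e) < c := by
  obtain ⟨f, hf, g, hg, hlt⟩ := DS.exists_lt_JJ ⟨bF, hbF⟩ ⟨bG, hbG⟩ hc
  obtain ⟨K, T, hK, hT, s1, s2, s3, s4⟩ := DS.exists_SB4 (hF hf) (hF hbF) (hG hg) (hG hbG)
  have hI : ∀ᶠ θ : ℝ in 𝓝[>] 0, 0 < θ ∧ θ ≤ 1 := Ioc_mem_nhdsGT one_pos
  have hq : ∀ θ : ℝ, 0 < θ ∧ θ ≤ 1 → (1 - θ) • f + θ • bF ∈ S.Q ∧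
      DS.SB K T ((1 - θ) • f + θ • bF) ∧ (1 - θ) • g + θ • bG ∈ S.Q ∧
      DS.SB K T ((1 - θ) • g + θ • bG) := fun θ hθ =>
    ⟨S.convex (hF hf) (hF hbF) (by linarith [hθ.2]) hθ.1.le (by ring), s1.seg s2 hθ.1.le hθ.2,
      S.convex (hG hg) (hG hbG) (by linarith [hθ.2]) hθ.1.le (by ring), s3.seg s4 hθ.1.le hθ.2⟩
  have t := DS.tendsto_val (S := S) (s := fun _ => s₀) hK
    (hI.mono fun θ hθ => ⟨(hq θ hθ).1, (hq θ hθ).2.1, (hq θ hθ).2.2.1, (hq θ hθ).2.2.2, hs0⟩)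
    (hF hf) s1 (hG hg) s3 hs0 (UC.seg (hF hf) (hF hbF)) (UC.seg (hG hg) (hG hbG))
    tendsto_const_nhds
  obtain ⟨θ, hθ, hθ'⟩ := (hI.and (t.eventually (gt_mem_nhds hlt))).exists
  obtain ⟨q1, q2, q3, q4⟩ := hq θ hθ
  have t2 := DS.tendsto_val (S := S) (l := l) (f := fun _ => _) (g := fun _ => _) hK
    (hs'.mono fun e he => ⟨q1, q2, q3, q4, he⟩) q1 q2 q3 q4 hs0 (UC.const _ _) (UC.const _ _) hs
  exact ⟨_, q1, _, q3, ((h1 f hf θ hθ.1 hθ.2).and ((h2 g hg θ hθ.1 hθ.2).and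
    (t2.eventually (gt_mem_nhds hθ'))))⟩

/-- continuous weights that become sharp -/
theorem exists_weights {n : ℕ} (c : Fin n → ℂ) (r : Fin n → ℝ) :
    ∃ ρ : ℕ → Option (Fin n) → ℂ → ℝ, (∀ N i, Continuous (ρ N i)) ∧ (∀ N i w, 0 ≤ ρ N i w) ∧
      (∀ N w, ∑ i, ρ N i w = 1) ∧ (∀ N j w, ρ N (some j) w ≠ 0 → w ∈ ball (c j) (r j)) ∧
      ∀ w, (∃ j, w ∈ ball (c j) (r j)) → ∃ j, w ∈ ball (c j) (r j) ∧
        ∀ᶠ N in atTop, ∀ i, ρ N i w = if i = some j then 1 else 0 := by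
  classical
  set σ : ℕ → Fin n → ℂ → ℝ := fun N j w => min 1 (N * max 0 (r j - dist w (c j))) with hσ
  have σ0 : ∀ N j w, 0 ≤ σ N j w := fun N j w =>
    le_min zero_le_one (mul_nonneg (Nat.cast_nonneg N) (le_max_left _ _))
  have σ1 : ∀ N j w, 0 ≤ 1 - σ N j w := fun N j w => sub_nonneg.2 (min_le_left _ _)
  have σc : ∀ N j, Continuous (σ N j) := fun N j => by simp only [hσ]; fun_prop
  have σz : ∀ N j w, w ∉ ball (c j) (r j) → σ N j w = 0 := fun N j w hw => by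
    rw [mem_ball, not_lt] at hw
    simp only [hσ]
    rw [max_eq_left (by linarith)]; simp
  refine ⟨fun N i w => i.elim (∏ j, (1 - σ N j w))
    fun j => σ N j w * ∏ k ∈ Finset.univ with k < j, (1 - σ N k w), fun N i => ?_,
    fun N i w => ?_, fun N w => ?_, fun N j w hw => ?_, fun w hw => ?_⟩
  · cases i with
    | none => exact continuous_finsetProd _ fun j _ => continuous_const.sub (σc N j)
    | some j =>
      exact (σc N j).mul (continuous_finsetProd _ fun k _ => continuous_const.sub (σc N k))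
  · cases i with
    | none => exact Finset.prod_nonneg fun j _ => σ1 N j w
    | some j => exact mul_nonneg (σ0 N j w) (Finset.prod_nonneg fun k _ => σ1 N k w)
  · rw [Fintype.sum_option]
    simp only [Option.elim]
    rw [Finset.prod_one_sub_ordered]; ring
  · by_contra h
    exact hw (by simp [σz N j w h])
  · obtain ⟨j, hj, hmin⟩ := WellFounded.has_min wellFounded_lt {j | w ∈ ball (c j) (r j)} hw
    refine ⟨j, hj, ?_⟩
    have hp : 0 < r j - dist w (c j) := sub_pos.2 hj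
    have t : ∀ᶠ N : ℕ in atTop, 1 / (r j - dist w (c j)) ≤ (N : ℝ) :=
      tendsto_natCast_atTop_atTop.eventually_ge_atTop _
    filter_upwards [t] with N hN i
    have h1 : σ N j w = 1 := by
      simp only [hσ]
      rw [max_eq_right hp.le, min_eq_left ((div_le_iff₀ hp).1 hN)]
    cases i with
    | none =>
      simp only [Option.elim, reduceCtorEq, if_false]
      exact Finset.prod_eq_zero (Finset.mem_univ j) (by rw [h1, sub_self])
    | some i =>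
      simp only [Option.elim, Option.some.injEq]
      rcases lt_trichotomy i j with h | rfl | h
      · rw [if_neg h.ne, σz N i w fun h' => hmin i h' h, zero_mul]
      · rw [if_pos rfl, h1, one_mul]
        refine Finset.prod_eq_one fun k hk => ?_
        rw [σz N k w fun h' => hmin k h' (Finset.mem_filter.1 hk).2, sub_zero]
      · rw [if_neg h.ne', Finset.prod_eq_zero (i := j) (by simpa using h) (by rw [h1, sub_self]),
          mul_zero]

theorem tendsto_avg_zero {h : ℕ → ℂ → ℝ} (hc : ∀ N, Continuous (h N)) {C : ℝ}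
    (hb : ∀ N w, ‖w‖ = 1 → |h N w| ≤ C)
    (ht : ∀ w, ‖w‖ = 1 → Tendsto (fun N => h N w) atTop (𝓝 0)) :
    Tendsto (fun N => Real.circleAverage (h N) 0 1) atTop (𝓝 0) := by
  have hn : ∀ θ : ℝ, ‖circleMap 0 1 θ‖ = 1 := fun θ => by simp
  have := intervalIntegral.tendsto_integral_filter_of_dominated_convergence (μ := volume)
    (a := 0) (b := 2 * Real.pi) (l := atTop) (F := fun N θ => h N (circleMap 0 1 θ))
    (f := fun _ => 0) (fun _ => C)
    (Eventually.of_forall fun N =>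
      ((hc N).comp (continuous_circleMap 0 1)).aestronglyMeasurable)
    (Eventually.of_forall fun N => Eventually.of_forall fun θ _ => hb N _ (hn θ))
    intervalIntegrable_const (Eventually.of_forall fun θ _ => ht _ (hn θ))
  simpa [Real.circleAverage_def] using this.const_mul (2 * Real.pi)⁻¹

omit [TopologicalSpace M] in
theorem sum_mem_of {ι : Type*} [Fintype ι] {F : Set (M → ℝ)} (hF : Convex ℝ F) {β : ι → M → ℝ}
    {ρ : ι → ℝ} (h0 : ∀ i, 0 ≤ ρ i) (h1 : ∑ i, ρ i = 1) (h : ∀ i, ρ i ≠ 0 → β i ∈ F) :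
    ∑ i, ρ i • β i ∈ F := by
  classical
  have e1 : ∑ i ∈ Finset.univ with ρ i ≠ 0, ρ i • β i = ∑ i, ρ i • β i :=
    Finset.sum_filter_of_ne fun i _ hi h' => hi (by rw [h', zero_smul])
  rw [← e1]
  exact hF.sum_mem (fun i _ => h0 i) (by rw [Finset.sum_filter_ne_zero, h1])
    fun i hi => h i (Finset.mem_filter.1 hi).2

/-- one disc, continuous feasible boundary data -/
theorem JJ_le_avg {ι : Type} [Fintype ι] {β γ : ι → M → ℝ} (hβ : ∀ i, β i ∈ S.Q)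
    (hγ : ∀ i, γ i ∈ S.Q) {ρ : ι → ℂ → ℝ} (hc : ∀ i, Continuous (ρ i)) (h0 : ∀ i w, 0 ≤ ρ i w)
    (h1 : ∀ w, ∑ i, ρ i w = 1) {F G : Set (M → ℝ)} (hF : F ⊆ S.Q) (hG : G ⊆ S.Q)
    (mF : ∀ V, S.JP V → (∀ w : ℂ, ‖w‖ = 1 → V w ≤ ∑ i, ρ i w • β i) → V 0 ∈ F)
    (mG : ∀ V, S.JP V → (∀ w : ℂ, ‖w‖ = 1 → V w ≤ ∑ i, ρ i w • γ i) → V 0 ∈ G)
    {a b : ℂ} (hs : ∀ w : ℂ, ‖w‖ ≤ 1 → 0 ≤ (a + w * b).re) :
    Continuous (fun w => S.val (∑ i, ρ i w • β i) (∑ i, ρ i w • γ i) (max 0 (a + w * b).re)) ∧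
    S.JJ F G a.re ≤ Real.circleAverage
      (fun w => S.val (∑ i, ρ i w • β i) (∑ i, ρ i w • γ i) (max 0 (a + w * b).re)) 0 1 := by
  obtain ⟨K1, T1, hK1, -, s1⟩ := DS.exists_SB_fin hβ
  obtain ⟨K2, T2, hK2, -, s2⟩ := DS.exists_SB_fin hγ
  have hK := hK1.union hK2
  have qf : ∀ w, ∑ i, ρ i w • β i ∈ S.Q := fun w =>
    sum_mem_of S.convex (fun i => h0 i w) (h1 w) fun i _ => hβ i
  have qg : ∀ w, ∑ i, ρ i w • γ i ∈ S.Q := fun w =>
    sum_mem_of S.convex (fun i => h0 i w) (h1 w) fun i _ => hγ i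
  have sf : ∀ w, DS.SB (K1 ∪ K2) (max T1 T2) (∑ i, ρ i w • β i) := fun w =>
    DS.SB.sum (fun i => (s1 i).mono subset_union_left (le_max_left _ _)) (fun i => h0 i w) (h1 w)
  have sg : ∀ w, DS.SB (K1 ∪ K2) (max T1 T2) (∑ i, ρ i w • γ i) := fun w =>
    DS.SB.sum (fun i => (s2 i).mono subset_union_right (le_max_right _ _)) (fun i => h0 i w) (h1 w)
  have uf : ∀ w₀, UC (𝓝 w₀) (fun w => ∑ i, ρ i w • β i) (∑ i, ρ i w₀ • β i) := fun w₀ =>
    UC.sum hβ fun i => (hc i).continuousAt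
  have ug : ∀ w₀, UC (𝓝 w₀) (fun w => ∑ i, ρ i w • γ i) (∑ i, ρ i w₀ • γ i) := fun w₀ =>
    UC.sum hγ fun i => (hc i).continuousAt
  have cs : Continuous fun w : ℂ => max 0 (a + w * b).re := by fun_prop
  have c1 : Continuous fun w => S.D (∑ i, ρ i w • β i) := continuous_iff_continuousAt.2 fun w₀ =>
    DS.tendsto_D hK (Eventually.of_forall fun w => ⟨qf w, sf w⟩) (qf w₀) (sf w₀) (uf w₀)
  have c2 : Continuous fun w => S.D (∑ i, ρ i w • γ i) := continuous_iff_continuousAt.2 fun w₀ =>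
    DS.tendsto_D hK (Eventually.of_forall fun w => ⟨qg w, sg w⟩) (qg w₀) (sg w₀) (ug w₀)
  have c3 : Continuous fun w => S.D (((∑ i, ρ i w • β i) ⊔ ∑ i, ρ i w • γ i) ⊔
      fun _ => -max 0 (a + w * b).re) := continuous_iff_continuousAt.2 fun w₀ =>
    DS.tendsto_D3 hK (Eventually.of_forall fun w => ⟨qf w, sf w, qg w, sg w, le_max_left _ _⟩)
      (qf w₀) (sf w₀) (qg w₀) (sg w₀) (le_max_left _ _) (uf w₀) (ug w₀) cs.continuousAt
  refine ⟨(c1.add c2).sub c3, le_of_forall_pos_le_add fun ε hε => ?_⟩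
  obtain ⟨V, hV, hV1, hV2⟩ := S.J_ex ι β ρ hβ hc h0 h1 _ (half_pos hε)
  obtain ⟨W, hW, hW1, hW2⟩ := S.J_ex ι γ ρ hγ hc h0 h1 _ (half_pos hε)
  have hΦ := S.J_tr _ (S.J_sup V W hV hW) a b hs
  have h3 := S.J_sub _ hΦ _ c3.fun_neg fun w hw => by
    refine neg_le_neg (S.anti _ (S.J_mem _ hΦ w hw.le) _
      (S.tr_mem _ (S.sup_mem _ (qf w) _ (qg w)) _ (le_max_left _ _)) ?_)
    rw [max_eq_right (hs w hw.le)]
    exact sup_le_sup_right (sup_le_sup (hV1 w hw) (hW1 w hw)) _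
  have ha : 0 ≤ a.re := by simpa using hs 0 (by simp)
  have h4 := DS.JJ_le hF hG ha (mF V hV hV1) (mG W hW hW1)
  have h5 : Real.circleAverage
      (fun w => S.val (∑ i, ρ i w • β i) (∑ i, ρ i w • γ i) (max 0 (a + w * b).re)) 0 1 =
      Real.circleAverage (fun w => S.D (∑ i, ρ i w • β i)) 0 1 +
      Real.circleAverage (fun w => S.D (∑ i, ρ i w • γ i)) 0 1 +
      Real.circleAverage (fun w => -S.D (((∑ i, ρ i w • β i) ⊔ ∑ i, ρ i w • γ i) ⊔
        fun _ => -max 0 (a + w * b).re)) 0 1 := by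
    rw [← Real.circleAverage_fun_add (cint c1) (cint c2),
      ← Real.circleAverage_fun_add (cint (c1.fun_add c2)) (cint c3.fun_neg)]
    simp only [DS.val, sub_eq_add_neg]
  rw [h5]
  simp only [zero_mul, add_zero] at h3
  unfold DS.val at h4
  linarith

variable {E : Type*} [NormedAddCommGroup E] [NormedSpace ℂ E]

theorem Fam.usc_JJ {O : Set E} {F G : E → Set (M → ℝ)} (hF : Fam S O F) (hG : Fam S O G)
    {s : E → ℝ} (hs : Continuous s) (hs0 : ∀ e ∈ O, 0 ≤ s e) :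
    UpperSemicontinuousOn (fun e => S.JJ (F e) (G e) (s e)) O := by
  intro e₀ he₀ c hc
  obtain ⟨bF, b1, b2⟩ := hF.strict {e₀} (singleton_subset_iff.2 he₀) isCompact_singleton
  obtain ⟨bG, b3, b4⟩ := hG.strict {e₀} (singleton_subset_iff.2 he₀) isCompact_singleton
  obtain ⟨f, -, g, -, h⟩ := exists_local (l := 𝓝[O] e₀) (F := F) (G := G) (hF.sub _ he₀)
    (hG.sub _ he₀) (b1 _ rfl) (b3 _ rfl)
    (fun f hf θ h0 h1 => (b2 _ rfl f hf θ h0 h1).filter_mono nhdsWithin_le_nhds)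
    (fun f hf θ h0 h1 => (b4 _ rfl f hf θ h0 h1).filter_mono nhdsWithin_le_nhds)
    hs.continuousWithinAt (hs0 _ he₀) (eventually_nhdsWithin_of_forall hs0) hc
  filter_upwards [h, self_mem_nhdsWithin] with e he heO
  exact (DS.JJ_le (hF.sub e heO) (hG.sub e heO) (hs0 e heO) he.1 he.2.1).trans_lt he.2.2

/-- **the two-pole functional is plurisubharmonic** -/
theorem Fam.psh_JJ {O : Set E} {F G : E → Set (M → ℝ)} (hF : Fam S O F) (hG : Fam S O G)
    (c : ℂ) (L : E →L[ℂ] ℂ) (hs0 : ∀ e ∈ O, 0 ≤ (c + L e).re) :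
    IsPsh O fun e => (S.JJ (F e) (G e) (c + L e).re : EReal) := by
  have hs : Continuous fun e => (c + L e).re := by fun_prop
  refine ⟨fun e he y hy => ?_, fun _ _ => EReal.coe_lt_top _, Sub.of_lt fun z v hz g hg hlt => ?_⟩
  · obtain ⟨b, h1, h2⟩ := EReal.lt_iff_exists_real_btwn.1 hy
    filter_upwards [hF.usc_JJ hG hs hs0 e he b (EReal.coe_lt_coe_iff.1 h1)] with x hx
    exact (EReal.coe_lt_coe_iff.2 hx).trans h2
  have hd := continuous_disc z v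
  have hK : IsCompact ((fun w : ℂ => z + w • v) '' sphere 0 1) := (isCompact_sphere _ _).image hd
  have hKO := image_subset_iff.2 (mapsTo_sphere hz)
  obtain ⟨bF, b1, b2⟩ := hF.strict _ hKO hK
  obtain ⟨bG, b3, b4⟩ := hG.strict _ hKO hK
  have mK : ∀ w : ℂ, ‖w‖ = 1 → z + w • v ∈ (fun w : ℂ => z + w • v) '' sphere 0 1 :=
    fun w hw => ⟨w, by simpa using hw, rfl⟩
  have eL : ∀ w : ℂ, c + L (z + w • v) = (c + L z) + w * L v := fun w => by
    rw [map_add, map_smul, smul_eq_mul, add_assoc]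
  have hsd : ∀ w : ℂ, ‖w‖ ≤ 1 → 0 ≤ ((c + L z) + w * L v).re := fun w hw =>
    eL w ▸ hs0 _ (hz w hw)
  have loc : ∀ w₀ : ℂ, ‖w₀‖ = 1 → ∃ f ∈ S.Q, ∃ f' ∈ S.Q, ∃ r > 0, ∀ w ∈ ball w₀ r,
      f ∈ F (z + w • v) ∧ f' ∈ G (z + w • v) ∧
        S.val f f' (max 0 ((c + L z) + w * L v).re) < g w := fun w₀ hw₀ => by
    have hO := disc_circle hz hw₀
    obtain ⟨a, h1, h2⟩ := exists_between (EReal.coe_lt_coe_iff.1 (hlt w₀ hw₀))
    have cs : Continuous fun w : ℂ => max 0 ((c + L z) + w * L v).re := by fun_prop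
    obtain ⟨f, hf, f', hf', h⟩ := exists_local (l := 𝓝 w₀) (F := fun w => F (z + w • v))
      (G := fun w => G (z + w • v)) (hF.sub _ hO) (hG.sub _ hO) (b1 _ (mK _ hw₀))
      (b3 _ (mK _ hw₀))
      (fun f hf θ h0 h1 => hd.continuousAt.eventually (b2 _ (mK _ hw₀) f hf θ h0 h1))
      (fun f hf θ h0 h1 => hd.continuousAt.eventually (b4 _ (mK _ hw₀) f hf θ h0 h1))
      cs.continuousAt (le_max_left _ _) (Eventually.of_forall fun _ => le_max_left _ _)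
      (c := a) (by simp only []; rwa [max_eq_right (hsd w₀ hw₀.le), ← eL])
    obtain ⟨r, hr, hr'⟩ := Metric.eventually_nhds_iff_ball.1
      (h.and (hg.continuousAt.eventually (lt_mem_nhds h2)))
    exact ⟨f, hf, f', hf', r, hr, fun w hw =>
      ⟨(hr' w hw).1.1, (hr' w hw).1.2.1, (hr' w hw).1.2.2.trans (hr' w hw).2⟩⟩
  choose! f hf f' hf' r hr hloc using loc
  obtain ⟨t, ht1, ht2⟩ := (isCompact_sphere (0 : ℂ) 1).elim_nhds_subcover (fun w => ball w (r w))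
    fun w hw => ball_mem_nhds w (hr w (by simpa using hw))
  set cc : Fin t.card → ℂ := fun j => (t.equivFin.symm j : ℂ) with hcc
  have hcc1 : ∀ j, ‖cc j‖ = 1 := fun j => by simpa using ht1 _ (t.equivFin.symm j).2
  have hcov : ∀ w : ℂ, ‖w‖ = 1 → ∃ j, w ∈ ball (cc j) (r (cc j)) := fun w hw => by
    obtain ⟨x, hx, hw'⟩ := mem_iUnion₂.1 (ht2 (show w ∈ sphere (0 : ℂ) 1 by simpa using hw))
    exact ⟨t.equivFin ⟨x, hx⟩, by simpa [hcc] using hw'⟩
  obtain ⟨ρ, r1, r2, r3, r4, r5⟩ := exists_weights cc fun j => r (cc j)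
  have h1 : ‖(1 : ℂ)‖ = 1 := by simp
  set β : Option (Fin t.card) → M → ℝ := fun i => i.elim bF fun j => f (cc j) with hβ
  set γ : Option (Fin t.card) → M → ℝ := fun i => i.elim bG fun j => f' (cc j) with hγ
  have qβ : ∀ i, β i ∈ S.Q := fun i => by
    cases i with
    | none => exact hF.sub _ (disc_circle hz h1) (b1 _ (mK _ h1))
    | some j => exact hf _ (hcc1 j)
  have qγ : ∀ i, γ i ∈ S.Q := fun i => by
    cases i with
    | none => exact hG.sub _ (disc_circle hz h1) (b3 _ (mK _ h1))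
    | some j => exact hf' _ (hcc1 j)
  have fβ : ∀ N (w : ℂ), ‖w‖ = 1 → ∑ i, ρ N i w • β i ∈ F (z + w • v) := fun N w hw =>
    sum_mem_of (hF.convex _ (disc_circle hz hw)) (fun i => r2 N i w) (r3 N w) fun i hi => by
      cases i with
      | none => exact b1 _ (mK _ hw)
      | some j => exact (hloc _ (hcc1 j) w (r4 N j w hi)).1
  have fγ : ∀ N (w : ℂ), ‖w‖ = 1 → ∑ i, ρ N i w • γ i ∈ G (z + w • v) := fun N w hw =>
    sum_mem_of (hG.convex _ (disc_circle hz hw)) (fun i => r2 N i w) (r3 N w) fun i hi => by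
      cases i with
      | none => exact b3 _ (mK _ hw)
      | some j => exact (hloc _ (hcc1 j) w (r4 N j w hi)).2.1
  set Val : ℕ → ℂ → ℝ := fun N w => S.val (∑ i, ρ N i w • β i) (∑ i, ρ N i w • γ i)
    (max 0 ((c + L z) + w * L v).re) with hVal
  have key : ∀ N, Continuous (Val N) ∧
      S.JJ (F z) (G z) (c + L z).re ≤ Real.circleAverage (Val N) 0 1 := fun N =>
    JJ_le_avg qβ qγ (r1 N) (r2 N) (r3 N) (hF.sub _ hz.center) (hG.sub _ hz.center)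
      (fun V hV h => hF.mp z v hz V hV fun w hw => ⟨_, fβ N w hw, h w hw⟩)
      (fun V hV h => hG.mp z v hz V hV fun w hw => ⟨_, fγ N w hw, h w hw⟩) hsd
  -- uniform bound
  obtain ⟨B, hB⟩ : ∃ B : ℝ, ∀ N w, Val N w ≤ B := by
    obtain ⟨K1, T1, hK1, hT1, s1⟩ := DS.exists_SB_fin qβ
    obtain ⟨K2, T2, hK2, hT2, s2⟩ := DS.exists_SB_fin qγ
    have bd : ∀ {K : Set M} {T : ℝ}, IsCompact K → 0 ≤ T → ∃ C : ℝ, ∀ u ∈ S.Q, DS.SB K T u →
        S.D u ≤ C := fun {K T} hK hT => by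
      obtain ⟨C, -, hC⟩ := S.lip K hK T
      refine ⟨C * T, fun u hu su => ?_⟩
      have := hC u hu 0 S.zero_mem su.1 (fun _ _ => rfl) su.2 (fun _ => by simpa using hT) T hT
        fun x => by have := su.2 x; simp only [Pi.zero_apply]; linarith
      rwa [S.D_zero, zero_add] at this
    obtain ⟨C1, hC1⟩ := bd hK1 hT1
    obtain ⟨C2, hC2⟩ := bd hK2 hT2
    refine ⟨C1 + C2, fun N w => ?_⟩
    have q1 := sum_mem_of S.convex (fun i => r2 N i w) (r3 N w) fun i _ => qβ i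
    have q2 := sum_mem_of S.convex (fun i => r2 N i w) (r3 N w) fun i _ => qγ i
    exact (DS.val_le q1 q2 (le_max_left _ _)).trans (add_le_add
      (hC1 _ q1 (DS.SB.sum s1 (fun i => r2 N i w) (r3 N w)))
      (hC2 _ q2 (DS.SB.sum s2 (fun i => r2 N i w) (r3 N w))))
  obtain ⟨B', hB'⟩ := (isCompact_sphere (0 : ℂ) 1).exists_bound_of_continuousOn hg.continuousOn
  have hc' : ∀ N, Continuous fun w => max (Val N w - g w) 0 := fun N =>
    ((key N).1.sub hg).max continuous_const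
  have t0 := tendsto_avg_zero hc' (C := max (B + B') 0) (fun N w hw => by
      rw [abs_of_nonneg (le_max_right _ _)]
      have := (abs_le.1 (hB' w (by simpa using hw))).1
      exact max_le_max (by linarith [hB N w]) le_rfl)
    (fun w hw => by
      obtain ⟨j, hj, hN⟩ := r5 w (hcov w hw)
      refine tendsto_const_nhds.congr' (hN.mono fun N hN => ?_)
      have e1 : ∑ i, ρ N i w • β i = f (cc j) := by simp [hN, hβ]
      have e2 : ∑ i, ρ N i w • γ i = f' (cc j) := by simp [hN, hγ]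
      have := (hloc _ (hcc1 j) w hj).2.2
      simp only [hVal, e1, e2]
      exact (max_eq_right (by linarith)).symm)
  refine EReal.coe_le_coe_iff.2 (ge_of_tendsto' (f := fun N => Real.circleAverage g 0 1 +
    Real.circleAverage (fun w => max (Val N w - g w) 0) 0 1) (x := atTop)
    (by simpa using t0.const_add (Real.circleAverage g 0 1)) fun N => (key N).2.trans ?_)
  rw [← Real.circleAverage_fun_add (cint hg) (cint (hc' N))]
  exact avg_mono (key N).1 (hg.add (hc' N)) fun w _ => by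
    have := le_max_left (Val N w - g w) 0
    linarith

/-- **the depth functional is plurisubharmonic** -/
theorem Fam.psh_dep {O : Set E} {F : E → Set (M → ℝ)} (hF : Fam S O F) :
    IsPsh O fun e => (S.dep (F e) : EReal) :=
  (hF.psh_JJ (fam_Q S O) 0 0 fun _ _ => by simp).congr fun e he => by
    simp only [zero_apply, add_zero, Complex.zero_re]
    rw [DS.JJ_zero (hF.sub e he) subset_rfl (hF.nonempty he) ⟨0, S.zero_mem⟩, DS.dep_Q, add_zero]

end Crest.Agent.X261.Two
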