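import Crest.Agent.X261.Two.SelN
import Crest.Agent.X261.Two.Del
import Crest.Agent.X261.Psh.Kis71

/-!
# Row 261, package TWO (helper15), file `UU`

The chart function `UU X Y` : jointly plurisubharmonic along holomorphic pole families,
symmetric, equivariant, and equal to `Xi + Ph + Ph` at good points.
-/

set_option autoImplicit false
set_option linter.dupNamespace false

open Set Filter Topology Finset

noncomputable section

namespace Crest.Agent.X261.Two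

open Crest.Agent.X261.Pole Crest.Agent.X261.Psh Crest.Agent.X261.Psh.Kis

variable {M : Type*} {S : LS M}

/-- total slope in the radius -/
def Kc (k : ℝ) (p : ℕ) (l : ℝ) (m : ℕ) : ℝ := ∑ j ∈ range m, kc k p (lev l m j)

/-- total depth energy of the ray of `a` -/
def sΦ (Y : PF S) (l : ℝ) (m : ℕ) (s T : ℝ) (a : M → ℝ) : ℝ :=
  ∑ j ∈ range m, Y.Φ (S.P 0 a (j * (T / m))) s (lev l m j * s)

/-- the two-point functional at finite radius -/
def J2 (X Y : PF S) (l : ℝ) (m : ℕ) (s T : ℝ) : ℝ :=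
  sInf ((fun a => sΦ X l m s T a + sΦ Y l m s T a - S.D a) '' Adm S T)

/-- the two-point chart function -/
def UU (X Y : PF S) (k : ℝ) (p : ℕ) (l : ℝ) (m : ℕ) (t : ℝ) : EReal :=
  ⨅ s ∈ Set.Ioi (max X.s0 Y.s0), ⨅ T ∈ Set.Ici (0 : ℝ),
    ((J2 X Y l m s T - 2 * Kc k p l m * s + (kap k p l m - t) * T : ℝ) : EReal)

variable {X Y : PF S} {k : ℝ} {p : ℕ} {l s T t : ℝ} {m : ℕ} {a : M → ℝ}

theorem J2_comm (X Y : PF S) : J2 X Y l m s T = J2 Y X l m s T := by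
  simp only [J2, add_comm]

theorem UU_comm (X Y : PF S) : UU X Y k p l m t = UU Y X k p l m t := by
  simp only [UU, J2_comm X Y, max_comm X.s0]

theorem sΦ_nonneg (hs : Y.s0 < s) (hT : 0 ≤ T) (ha : a ∈ S.Q) : 0 ≤ sΦ Y l m s T a :=
  sum_nonneg fun j _ => PF.Φ_nonneg (sh_mem ha (step_nonneg hT m j)) hs _

theorem D_le_sΦ (hm : 0 < m) (hs : Y.s0 < s) (hT : 0 ≤ T) (ha : a ∈ S.Q) :
    S.D a ≤ sΦ Y l m s T a := by
  have h1 := single_le_sum (f := fun j : ℕ => Y.Φ (S.P 0 a (j * (T / m))) s (lev l m j * s))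
    (fun j _ => PF.Φ_nonneg (sh_mem ha (step_nonneg hT m j)) hs _) (mem_range.2 hm)
  simp only [Nat.cast_zero, zero_mul, sh_zero ha] at h1
  exact ((Y.cons s hs _).D_le_dp ha).trans h1

theorem J2_le (hm : 0 < m) (hX : X.s0 < s) (hY : Y.s0 < s) (hT : 0 ≤ T) (ha : a ∈ Adm S T) :
    J2 X Y l m s T ≤ sΦ X l m s T a + sΦ Y l m s T a - S.D a := by
  refine csInf_le ⟨0, ?_⟩ ⟨a, ha, rfl⟩
  rintro _ ⟨b, hb, rfl⟩
  have := D_le_sΦ (l := l) hm hX hT hb.1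
  have := sΦ_nonneg (l := l) (m := m) hY hT hb.1
  simp only; linarith

theorem le_J2 (hT : 0 ≤ T) {r : ℝ}
    (h : ∀ a ∈ Adm S T, r ≤ sΦ X l m s T a + sΦ Y l m s T a - S.D a) : r ≤ J2 X Y l m s T :=
  le_csInf ⟨_, 0, zero_adm hT, rfl⟩ (by rintro _ ⟨a, ha, rfl⟩; exact h a ha)

theorem UU_le (hX : X.s0 < s) (hY : Y.s0 < s) (hT : 0 ≤ T) : UU X Y k p l m t ≤
    ((J2 X Y l m s T - 2 * Kc k p l m * s + (kap k p l m - t) * T : ℝ) : EReal) :=
  iInf₂_le_of_le s (max_lt hX hY) (iInf₂_le T hT)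

/-! ### good points -/

theorem sc_add_le (hY : Y.Asy k p) (hl : 0 < l) (hs : Y.s0 < s) (hT : 0 ≤ T) (ha : a ∈ S.Q) :
    sc Y k p l m T a + Ph Y k p l m ≤ sΦ Y l m s T a - Kc k p l m * s := by
  rw [sc, Ph, sΦ, Kc, sum_mul, ← sum_add_distrib, ← sum_sub_distrib]
  refine sum_le_sum fun j hj => ?_
  have := hY.dl_le (lev_pos hl (mem_range.1 hj)) (sh_mem ha (step_nonneg hT m j)) hs
    (lev l m j * s)
  unfold PF.cst
  linarith

theorem tendsto_sΦ (hY : Y.Asy k p) (hl : 0 < l) (hT : 0 ≤ T) (ha : a ∈ S.Q) :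
    Tendsto (fun s => sΦ Y l m s T a - Kc k p l m * s) atTop
      (𝓝 (sc Y k p l m T a + Ph Y k p l m)) := by
  simp only [sc, Ph, sΦ, Kc, sum_mul, ← sum_add_distrib, ← sum_sub_distrib, PF.cst,
    sub_add_cancel]
  exact tendsto_finsetSum _ fun j hj =>
    hY.tendsto0 (lev_pos hl (mem_range.1 hj)) (sh_mem ha (step_nonneg hT m j))

theorem del_le_J2 (hX : X.Asy k p) (hY : Y.Asy k p) (hl : 0 < l) (hm : 0 < m) (hXs : X.s0 < s)
    (hYs : Y.s0 < s) (hT : 0 ≤ T) : del X Y k p l m T + Ph X k p l m + Ph Y k p l m -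
      kap k p l m * T ≤ J2 X Y l m s T - 2 * Kc k p l m * s := by
  refine le_sub_iff_add_le.2 (le_J2 hT fun a ha => ?_)
  have h1 := del_le hX hY hl hm hT ha
  have h2 := sc_add_le (m := m) hX hl hXs hT ha.1
  have h3 := sc_add_le (m := m) hY hl hYs hT ha.1
  unfold br at h1
  linarith

theorem ev_J2_lt (hX : X.Asy k p) (hY : Y.Asy k p) (hl : 0 < l) (hm : 0 < m) (hT : 0 ≤ T) {r : ℝ}
    (hr : del X Y k p l m T < r) : ∀ᶠ s in atTop, J2 X Y l m s T - 2 * Kc k p l m * s <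
      r + Ph X k p l m + Ph Y k p l m - kap k p l m * T := by
  obtain ⟨a, ha, h⟩ := exists_br_lt hT hr
  have h1 := ((tendsto_sΦ (m := m) hX hl hT ha.1).add (tendsto_sΦ (m := m) hY hl hT ha.1)).eventually
    (gt_mem_nhds (show _ < r + Ph X k p l m + Ph Y k p l m - kap k p l m * T + S.D a by
      unfold br at h; linarith))
  filter_upwards [h1, eventually_gt_atTop X.s0, eventually_gt_atTop Y.s0] with s e1 e2 e3
  linarith [J2_le (l := l) hm e2 e3 hT ha]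

/-- at good points `UU = Xi + Ph + Ph` -/
theorem UU_eq (hX : X.Asy k p) (hY : Y.Asy k p) (hl : 0 < l) (hm : 0 < m) :
    UU X Y k p l m t = Xi X Y k p l m t + ((Ph X k p l m + Ph Y k p l m : ℝ) : EReal) := by
  refine le_antisymm (le_of_forall_gt_imp_ge_of_dense fun q hq => ?_)
    (le_iInf₂ fun s hs => le_iInf₂ fun T hT => ?_)
  · obtain ⟨b, hb1, hb2⟩ := EReal.lt_iff_exists_real_btwn.1 hq
    obtain ⟨T, hT, h⟩ := exists_of_Xi_lt (add_coe_lt_iff.1 hb1)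
    obtain ⟨s, e1, e2, e3⟩ := ((ev_J2_lt hX hY hl hm hT
      (r := b - (Ph X k p l m + Ph Y k p l m) + t * T) (by linarith)).and
      ((eventually_gt_atTop X.s0).and (eventually_gt_atTop Y.s0))).exists
    exact (UU_le e2 e3 hT).trans ((EReal.coe_le_coe_iff.2 (by linarith)).trans hb2.le)
  · refine add_coe_le_iff.2 ((Xi_le hT).trans (EReal.coe_le_coe_iff.2 ?_))
    linarith [del_le_J2 hX hY hl hm ((le_max_left _ _).trans_lt hs) ((le_max_right _ _).trans_lt hs)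
      hT]

theorem UU_le_Ph (hX : X.Asy k p) (hY : Y.Asy k p) (hl : 0 < l) (hm : 0 < m) :
    UU X Y k p l m t ≤ ((Ph X k p l m + Ph Y k p l m : ℝ) : EReal) := by
  rw [UU_eq hX hY hl hm]
  simpa using add_le_add (Xi_nonpos (t := t) hX hY hl hm) (le_refl _)

theorem star_of_convex (hX : X.Asy k p) (hY : Y.Asy k p) (hl : 0 < l) (hm : 0 < m)
    (h : ∀ᶠ s in atTop, ∀ T θ : ℝ, 0 ≤ T → 0 ≤ θ → θ ≤ 1 →
      J2 X Y l m s (θ * T) ≤ (1 - θ) * J2 X Y l m s 0 + θ * J2 X Y l m s T) :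
    Star X Y k p l m := by
  intro T θ hT h0 h1
  refine le_of_forall_pos_le_add fun ε hε => ?_
  obtain ⟨s, e1, e2, e3, e4, e5⟩ := (h.and
    ((ev_J2_lt hX hY hl hm hT (lt_add_of_pos_right _ hε)).and
    ((ev_J2_lt hX hY hl hm le_rfl (lt_add_of_pos_right _ hε)).and
    ((eventually_gt_atTop X.s0).and (eventually_gt_atTop Y.s0))))).exists
  have e6 := del_le_J2 hX hY hl hm e4 e5 (mul_nonneg h0 hT)
  have e7 := e1 T θ hT h0 h1
  rw [del_zero hX hY hl hm] at e3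
  have e8 := mul_le_mul_of_nonneg_left e2.le h0
  have e9 := mul_le_mul_of_nonneg_left e3.le (sub_nonneg.2 h1)
  nlinarith

/-! ### equivariance -/

/-- `γ` preserves the energy lattice -/
structure Sym (S : LS M) (γ : M ≃ M) : Prop where
  mem : ∀ f, f ∘ γ ∈ S.Q ↔ f ∈ S.Q
  D : ∀ f ∈ S.Q, S.D (f ∘ γ) = S.D f

/-- `X'` is the image of `X` under `γ` -/
structure Tr (γ : M ≃ M) (X X' : PF S) : Prop where
  s0 : X'.s0 = X.s0
  mem : ∀ s, X.s0 < s → ∀ h, ∀ f ∈ S.Q, f ∈ X'.F s h ↔ f ∘ γ ∈ X.F s h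

section sym

variable {γ : M ≃ M} {X' Y' : PF S}

theorem comp_symm_comp (γ : M ≃ M) (f : M → ℝ) : (f ∘ γ.symm) ∘ γ = f := by
  funext x; simp

theorem Sym.mem' (hγ : Sym S γ) {f : M → ℝ} (hf : f ∈ S.Q) : f ∘ γ.symm ∈ S.Q :=
  (hγ.mem _).1 (by rwa [comp_symm_comp])

theorem Sym.sh (hγ : Sym S γ) (ha : a ∈ S.Q) (ht : 0 ≤ t) :
    S.P 0 (a ∘ γ) t = S.P 0 a t ∘ γ := by
  have ha' := (hγ.mem a).2 ha
  refine le_antisymm (fun x => ?_) (le_sh ha' ht ((hγ.mem _).2 (sh_mem ha ht))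
    fun x => sh_le ha ht (γ x))
  simpa using le_sh ha ht (hγ.mem' (sh_mem ha' ht))
    (fun y => by simpa using sh_le ha' ht (γ.symm y)) (γ x)

theorem Tr.Φ (hγ : Sym S γ) (hX : Tr γ X X') (hs : X.s0 < s) (a : M → ℝ) (h : ℝ) :
    X'.Φ a s h = X.Φ (a ∘ γ) s h := by
  unfold PF.Φ LS.dp
  congr 1
  ext r
  constructor
  · rintro ⟨f, ⟨f1, f2, f3⟩, rfl⟩
    exact ⟨f ∘ γ, ⟨(hγ.mem f).2 f1, fun x => f2 _, (hX.mem s hs h f f1).1 f3⟩, hγ.D f f1⟩
  · rintro ⟨f, ⟨f1, f2, f3⟩, rfl⟩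
    refine ⟨f ∘ γ.symm, ⟨hγ.mem' f1, fun x => by simpa using f2 (γ.symm x),
      (hX.mem s hs h _ (hγ.mem' f1)).2 (by rwa [comp_symm_comp])⟩, ?_⟩
    rw [← hγ.D _ (hγ.mem' f1), comp_symm_comp]

theorem Tr.Φ0 (hγ : Sym S γ) (hX : Tr γ X X') (hs : X.s0 < s) (h : ℝ) :
    X'.Φ 0 s h = X.Φ 0 s h := hX.Φ hγ hs 0 h

theorem Tr.Dl (hγ : Sym S γ) (hX : Tr γ X X') (c : ℝ) (a : M → ℝ) :
    X'.Dl k p c a = X.Dl k p c (a ∘ γ) := by
  unfold PF.Dl
  rw [hX.s0]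
  exact iInf_congr fun s => iInf_congr fun hs => by rw [hX.Φ hγ hs]

theorem Tr.asy (hγ : Sym S γ) (hX : Tr γ X X') (h : X.Asy k p) : X'.Asy k p := by
  intro c₀ c₁ hc
  obtain ⟨C, s₁, H⟩ := h c₀ c₁ hc
  refine ⟨C, max s₁ (X.s0 + 1), fun s hs r h1 h2 => ?_⟩
  rw [hX.Φ0 hγ (by linarith [le_max_right s₁ (X.s0 + 1)])]
  exact H s ((le_max_left _ _).trans hs) r h1 h2

theorem Tr.Ph (hγ : Sym S γ) (hX : Tr γ X X') : Ph X' k p l m = Ph X k p l m :=
  sum_congr rfl fun _ _ => congrArg EReal.toReal (hX.Dl hγ _ 0)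

theorem Tr.sΦ (hγ : Sym S γ) (hX : Tr γ X X') (hs : X.s0 < s) (hT : 0 ≤ T) (ha : a ∈ S.Q) :
    sΦ X' l m s T a = sΦ X l m s T (a ∘ γ) :=
  sum_congr rfl fun j _ => by rw [hX.Φ hγ hs, hγ.sh ha (step_nonneg hT m j)]

theorem Tr.J2 (hγ : Sym S γ) (hX : Tr γ X X') (hY : Tr γ Y Y') (hXs : X.s0 < s) (hYs : Y.s0 < s)
    (hT : 0 ≤ T) : J2 X' Y' l m s T = J2 X Y l m s T := by
  unfold Two.J2
  congr 1
  ext r
  constructor
  · rintro ⟨a, ha, rfl⟩
    exact ⟨a ∘ γ, ⟨(hγ.mem a).2 ha.1, fun x => ha.2 _⟩, by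
      simp only [hX.sΦ hγ hXs hT ha.1, hY.sΦ hγ hYs hT ha.1, hγ.D a ha.1]⟩
  · rintro ⟨a, ha, rfl⟩
    refine ⟨a ∘ γ.symm, ⟨hγ.mem' ha.1, fun x => ha.2 _⟩, ?_⟩
    simp only [hX.sΦ hγ hXs hT (hγ.mem' ha.1), hY.sΦ hγ hYs hT (hγ.mem' ha.1),
      ← hγ.D _ (hγ.mem' ha.1), comp_symm_comp]

theorem Tr.UU (hγ : Sym S γ) (hX : Tr γ X X') (hY : Tr γ Y Y') :
    UU X' Y' k p l m t = UU X Y k p l m t := by
  unfold Two.UU
  rw [hX.s0, hY.s0]
  exact iInf_congr fun s => iInf_congr fun hs => iInf_congr fun T => iInf_congr fun hT => by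
    rw [hX.J2 hγ hY ((le_max_left _ _).trans_lt hs) ((le_max_right _ _).trans_lt hs) hT]

/-- the transport hypothesis of `MS.kesten` -/
theorem Tr.transport (hγ : Sym S γ) (hX : Tr γ X X') (l : ℝ) :
    ∀ᶠ s in atTop, ∀ f ∈ S.Q, f ∈ X.F s (l * s) → f ∘ γ.symm ∈ X'.F s (l * s) := by
  filter_upwards [eventually_gt_atTop X.s0] with s hs f hf hF
  exact (hX.mem s hs _ _ (hγ.mem' hf)).2 (by rwa [comp_symm_comp])

end sym

/-! ### plurisubharmonicity -/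

variable [TopologicalSpace M] {R : DS M}

/-- the two structures describe the same energy -/
structure Cmp (R : DS M) (S : LS M) : Prop where
  Q : R.Q = S.Q
  D : R.D = S.D

/-- the constraints of the levels -/
def famF (X Y : PF S) (l : ℝ) (m : ℕ) (s : ℝ) : Fin m ⊕ Fin m → Set (M → ℝ) :=
  Sum.elim (fun j => {f | f ∈ S.Q ∧ f ∈ X.F s (lev l m j * s)})
    fun j => {f | f ∈ S.Q ∧ f ∈ Y.F s (lev l m j * s)}

/-- the shifts of the levels -/
def famT (m : ℕ) (T : ℝ) : Fin m ⊕ Fin m → ℝ :=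
  Sum.elim (fun j => (j : ℕ) * (T / m)) fun j => (j : ℕ) * (T / m)

theorem J2_eq_JN (hR : Cmp R S) (hm : 0 < m) (hX : X.s0 < s) (hY : Y.s0 < s) (hT : 0 ≤ T) :
    J2 X Y l m s T = R.JN (.inl ⟨0, hm⟩) (famF X Y l m s) (famT m T) T := by
  have hF : ∀ i, famF X Y l m s i ⊆ R.Q := fun i f hf => by
    rw [hR.Q]; cases i <;> exact hf.1
  have ht : ∀ i, 0 ≤ famT m T i := fun i => by cases i <;> exact step_nonneg hT m _
  have hne : ∀ i, (famF X Y l m s i).Nonempty := fun i => by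
    cases i with
    | inl j => obtain ⟨f, h1, -, h2⟩ := (X.cons s hX _).ne 0 S.zero_mem; exact ⟨f, h1, h2⟩
    | inr j => obtain ⟨f, h1, -, h2⟩ := (Y.cons s hY _).ne 0 S.zero_mem; exact ⟨f, h1, h2⟩
  refine le_antisymm (DS.le_JN hne fun f hf => ?_) (le_J2 hT fun a ha => ?_)
  · have hA : mxN (.inl ⟨0, hm⟩) f (famT m T) T ∈ S.Q :=
      hR.Q ▸ DS.mxN_mem (fun i => hF i (hf i)) ht hT
    obtain ⟨-, h2, h3⟩ := le_mxN (.inl ⟨0, hm⟩) f (famT m T) T
    refine (J2_le (l := l) hm hX hY hT ⟨hA, h2⟩).trans ?_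
    rw [DS.valN, hR.D, Fintype.sum_sum_type, sΦ, sΦ, sum_range, sum_range]
    refine sub_le_sub_right (add_le_add (sum_le_sum fun j _ => ?_) (sum_le_sum fun j _ => ?_)) _
    · exact LS.dp_le (hf (.inl j)).1 (le_sh hA (ht (.inl j)) (hf (.inl j)).1
        fun x => sub_le_iff_le_add.1 (h3 (.inl j) x)) (hf (.inl j)).2
    · exact LS.dp_le (hf (.inr j)).1 (le_sh hA (ht (.inr j)) (hf (.inr j)).1
        fun x => sub_le_iff_le_add.1 (h3 (.inr j) x)) (hf (.inr j)).2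
  · refine le_of_forall_pos_le_add fun ε hε => ?_
    have hm' : (0 : ℝ) < m := by exact_mod_cast hm
    have h2 : 0 < ε / (2 * m) := by positivity
    choose f f1 f2 f3 f4 using fun j : Fin m =>
      (X.cons s hX (lev l m j * s)).near (sh_mem ha.1 (step_nonneg hT m j)) h2
    choose g g1 g2 g3 g4 using fun j : Fin m =>
      (Y.cons s hY (lev l m j * s)).near (sh_mem ha.1 (step_nonneg hT m j)) h2
    have hfg : ∀ i, Sum.elim f g i ∈ famF X Y l m s i := fun i => by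
      cases i with
      | inl j => exact ⟨f1 j, f3 j⟩
      | inr j => exact ⟨g1 j, g3 j⟩
    refine (DS.JN_le hF ht hT hfg).trans ?_
    have hA : mxN (.inl ⟨0, hm⟩) (Sum.elim f g) (famT m T) T ∈ S.Q :=
      hR.Q ▸ DS.mxN_mem (fun i => hF i (hfg i)) ht hT
    have h3 : ∀ i x, Sum.elim f g i x - famT m T i ≤ a x := fun i x => by
      cases i with
      | inl j => exact sub_le_iff_le_add.2 ((f2 j x).trans (sh_le ha.1 (step_nonneg hT m j) x))
      | inr j => exact sub_le_iff_le_add.2 ((g2 j x).trans (sh_le ha.1 (step_nonneg hT m j) x))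
    have h4 := S.anti _ hA a ha.1 (mxN_le_iff.2
      ⟨fun x => by simpa [famT] using h3 (.inl ⟨0, hm⟩) x, ha.2, h3⟩)
    have h5 := sum_le_sum fun j (_ : j ∈ Finset.univ) => (f4 j).le
    have h6 := sum_le_sum fun j (_ : j ∈ Finset.univ) => (g4 j).le
    rw [sum_add_distrib, sum_const, card_univ, Fintype.card_fin, nsmul_eq_mul] at h5 h6
    have h7 : (m : ℝ) * (ε / (2 * m)) = ε / 2 := by field_simp
    rw [DS.valN, hR.D, Fintype.sum_sum_type, sΦ, sΦ, sum_range, sum_range]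
    simp only [Sum.elim_inl, Sum.elim_inr, PF.Φ]
    linarith

variable {E E' : Type*} [NormedAddCommGroup E] [NormedSpace ℂ E] [NormedAddCommGroup E']
  [NormedSpace ℂ E']

theorem Fam.congr {O : Set E} {F F' : E → Set (M → ℝ)} (h : Fam R O F) (hO : IsOpen O)
    (he : ∀ e ∈ O, F e = F' e) : Fam R O F' := by
  refine ⟨fun e h' => he e h' ▸ h.sub e h', fun e h' => he e h' ▸ h.convex e h',
    fun K hKO hK => ?_, fun z v hz V hV hle => he z hz.center ▸ h.mp z v hz V hV fun w hw =>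
      (he _ (hz w hw.le)).symm ▸ hle w hw⟩
  obtain ⟨b, h1, h2⟩ := h.strict K hKO hK
  refine ⟨b, fun e h' => he e (hKO h') ▸ h1 e h', fun e₀ h' f hf θ h0 h3 => ?_⟩
  filter_upwards [h2 e₀ h' f ((he e₀ (hKO h')).symm ▸ hf) θ h0 h3, hO.mem_nhds (hKO h')]
    with e h4 h5 using he e h5 ▸ h4

/-- holomorphic families of poles: `(x, σ, η) ↦ F x (re σ) (re η)` is admissible -/
structure Hol (R : DS M) (X : E → PF S) (O : Set E) (s₀ : ℝ) : Prop where
  s0 : ∀ x ∈ O, (X x).s0 = s₀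
  fam : Fam R (O ×ˢ strip (Set.Ioi s₀) ×ˢ Set.univ)
    fun e : E × ℂ × ℂ => {f | f ∈ S.Q ∧ f ∈ (X e.1).F e.2.1.re e.2.2.re}

theorem tube_J2 (hR : Cmp R S) {X : E → PF S} {Y : E' → PF S} {O : Set E} {O' : Set E'}
    {s₁ s₂ : ℝ} (hX : Hol R X O s₁) (hY : Hol R Y O' s₂) (l : ℝ) (hm : 0 < m) :
    Tube ((O ×ˢ O') ×ˢ strip (Set.Ioi (max s₁ s₂))) (Set.Ici 0)
      fun (q : (E × E') × ℂ) T => (J2 (X q.1.1) (Y q.1.2) l m q.2.re T : EReal) := by
  set σ : ((E × E') × ℂ) × ℂ →L[ℂ] ℂ :=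
    (ContinuousLinearMap.snd ℂ _ _).comp (ContinuousLinearMap.fst ℂ _ _) with hσ
  set π : ((E × E') × ℂ) × ℂ →L[ℂ] E × E' :=
    (ContinuousLinearMap.fst ℂ _ _).comp (ContinuousLinearMap.fst ℂ _ _) with hπ
  set D := ((O ×ˢ O') ×ˢ strip (Set.Ioi (max s₁ s₂))) ×ˢ strip (Set.Ici (0 : ℝ)) with hD
  have hF : ∀ i, Fam R D fun e => famF (X e.1.1.1) (Y e.1.1.2) l m e.1.2.re i := fun i => by
    cases i with
    | inl j =>
      have := hX.fam.comp_affine (((ContinuousLinearMap.fst ℂ _ _).comp π).prod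
        (σ.prod ((lev l m j : ℂ) • σ))) 0 (O' := D) fun e he =>
          ⟨by simpa [hπ] using he.1.1.1, by
            simpa [hσ, strip] using (le_max_left _ _).trans_lt he.1.2, trivial⟩
      simpa [famF, hσ, hπ] using this
    | inr j =>
      have := hY.fam.comp_affine (((ContinuousLinearMap.snd ℂ _ _).comp π).prod
        (σ.prod ((lev l m j : ℂ) • σ))) 0 (O' := D) fun e he =>
          ⟨by simpa [hπ] using he.1.1.2, by
            simpa [hσ, strip] using (le_max_right _ _).trans_lt he.1.2, trivial⟩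
      simpa [famF, hσ, hπ] using this
  set L : Fin m ⊕ Fin m → ((E × E') × ℂ) × ℂ →L[ℂ] ℂ := fun i =>
    ((famT m 1 i : ℝ) : ℂ) • ContinuousLinearMap.snd ℂ _ _ with hL
  have eL : ∀ i e, (0 + L i e).re = famT m e.2.re i := fun i e => by
    have : famT m e.2.re i = famT m 1 i * e.2.re := by cases i <;> simp only [famT] <;>
      simp <;> ring
    simp [hL, this]
  have h := psh_JN (.inl ⟨0, hm⟩) hF (fun _ => 0) L 0 (ContinuousLinearMap.snd ℂ _ _)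
    (fun i e he => by
      rw [eL]; cases i <;> exact step_nonneg he.2 m _)
    (fun e he => by simpa [strip] using he.2)
  refine h.congr fun e he => ?_
  simp only [eL]
  rw [J2_eq_JN hR hm (hX.s0 _ he.1.1.1 ▸ (le_max_left _ _).trans_lt he.1.2)
    (hY.s0 _ he.1.1.2 ▸ (le_max_right _ _).trans_lt he.1.2) he.2]
  simp

/-- **(PSH)** -/
theorem psh_UU (hR : Cmp R S) {X : E → PF S} {Y : E' → PF S} {O : Set E} {O' : Set E'}
    (hO : IsOpen O) (hO' : IsOpen O') {s₁ s₂ : ℝ} (hX : Hol R X O s₁) (hY : Hol R Y O' s₂)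
    (k : ℝ) (p : ℕ) (l : ℝ) (hm : 0 < m) (t : ℝ) :
    IsPsh (O ×ˢ O') fun q : E × E' => UU (X q.1) (Y q.2) k p l m t := by
  have h1 := ((tube_J2 hR hX hY l hm).add_lin (kap k p l m - t) 0).add_psh
    (Hol.isPsh_re (H := fun q : (E × E') × ℂ => ((-(2 * Kc k p l m) : ℝ) : ℂ) * q.2)
      (by fun_prop))
  have h2 := h1.iInf ((hO.prod hO').prod (isOpen_strip isOpen_Ioi)) Set.ordConnected_Ici
    Set.nonempty_Ici
  have h3 : Tube (O ×ˢ O') (Set.Ioi (max s₁ s₂)) fun q s => ⨅ T ∈ Set.Ici (0 : ℝ),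
      ((J2 (X q.1) (Y q.2) l m s T - 2 * Kc k p l m * s + (kap k p l m - t) * T : ℝ) : EReal) :=
    h2.congr fun q _ => iInf_congr fun T => iInf_congr fun _ => by
      rw [← EReal.coe_add, ← EReal.coe_add, Complex.re_ofReal_mul]
      congr 1; ring
  refine (h3.iInf (hO.prod hO') Set.ordConnected_Ioi Set.nonempty_Ioi).congr fun q hq => ?_
  simp only [UU, hX.s0 _ hq.1, hY.s0 _ hq.2]

/-- convexity in `T` at good points -/
theorem star (hR : Cmp R S) {X : E → PF S} {Y : E' → PF S} {O : Set E} {O' : Set E'}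
    {s₁ s₂ : ℝ} (hX : Hol R X O s₁) (hY : Hol R Y O' s₂) {x : E} {y : E'} (hx : x ∈ O)
    (hy : y ∈ O') (ax : (X x).Asy k p) (ay : (Y y).Asy k p) (hl : 0 < l) (hm : 0 < m) :
    Star (X x) (Y y) k p l m := by
  refine star_of_convex ax ay hl hm ?_
  filter_upwards [eventually_gt_atTop (max s₁ s₂)] with s hs T θ hT h0 h1
  have := (tube_J2 hR hX hY l hm).convex Set.ordConnected_Ici (x := ((x, y), (s : ℂ)))
    ⟨⟨hx, hy⟩, by simpa [strip] using hs⟩ (s0 := 0) (s1 := T) Set.self_mem_Ici hT le_rfl le_rfl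
    (sub_nonneg.2 h1) h0 (by ring)
  simpa only [mul_zero, zero_add, Complex.ofReal_re, EReal.coe_le_coe_iff] using this

/-- the one-point functional: `Φ a (re σ) (re η)` is jointly psh for the background `0` -/
theorem Hol.psh_Φ (hR : Cmp R S) {X : E → PF S} {O : Set E} {s₁ : ℝ} (hX : Hol R X O s₁) :
    IsPsh (O ×ˢ strip (Set.Ioi s₁) ×ˢ Set.univ)
      fun e : E × ℂ × ℂ => ((X e.1).Φ 0 e.2.1.re e.2.2.re : EReal) :=
  hX.fam.psh_dep.congr fun e _ => by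
    simp only [DS.dep, PF.Φ, LS.dp, hR.D]
    congr 3
    ext f
    exact ⟨fun h => ⟨h.1, S.nonpos f h.1, h.2⟩, fun h => ⟨h.1, h.2.2⟩⟩

/-- `Dl k p c 0` is psh on the whole chart -/
theorem Hol.psh_Dl (hR : Cmp R S) {X : E → PF S} {O : Set E} (hO : IsOpen O) {s₁ : ℝ}
    (hX : Hol R X O s₁) (k : ℝ) (p : ℕ) (c : ℝ) : IsPsh O fun x => (X x).Dl k p c 0 := by
  have h1 := ((hX.psh_Φ hR).comp_clm ((ContinuousLinearMap.fst ℂ E ℂ).prod
    ((ContinuousLinearMap.snd ℂ E ℂ).prod ((c : ℂ) • ContinuousLinearMap.snd ℂ E ℂ)))).mono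
    (D' := O ×ˢ strip (Set.Ioi s₁)) fun q hq => ⟨hq.1, hq.2, trivial⟩
  have h2 : Tube O (Set.Ioi s₁) fun x s => ((X x).Φ 0 s (c * s) : EReal) :=
    h1.congr fun q _ => by simp
  refine (h2.legendre hO Set.ordConnected_Ioi Set.nonempty_Ioi (-kc k p c) 0).congr fun x hx => ?_
  simp only [PF.Dl, hX.s0 x hx]
  exact iInf_congr fun s => iInf_congr fun _ => by rw [← EReal.coe_add]; congr 1; ring

/-- the chart version of `Ph` -/
def PhE (Y : PF S) (k : ℝ) (p : ℕ) (l : ℝ) (m : ℕ) : EReal :=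
  ∑ j ∈ range m, Y.Dl k p (lev l m j) 0

omit [TopologicalSpace M] in
theorem PhE_eq (hY : Y.Asy k p) (hl : 0 < l) : PhE Y k p l m = (Ph Y k p l m : ℝ) := by
  have e : ∀ (A : Finset ℕ) (f : ℕ → ℝ), ((∑ j ∈ A, f j : ℝ) : EReal) = ∑ j ∈ A, (f j : EReal) :=
    fun A f => by
      induction A using Finset.induction_on with
      | empty => simp
      | insert a A ha ih => rw [sum_insert ha, sum_insert ha, EReal.coe_add, ih]
  rw [PhE, Ph, e]
  exact sum_congr rfl fun j hj => (hY.coe_dl (lev_pos hl (mem_range.1 hj)) S.zero_mem).symm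

omit [TopologicalSpace M] in
theorem Tr.PhE {γ : M ≃ M} {X' : PF S} (hγ : Sym S γ) (hX : Tr γ X X') :
    PhE X' k p l m = PhE X k p l m := sum_congr rfl fun _ _ => hX.Dl hγ _ 0

theorem Hol.psh_PhE (hR : Cmp R S) {X : E → PF S} {O : Set E} (hO : IsOpen O) {s₁ : ℝ}
    (hX : Hol R X O s₁) (k : ℝ) (p : ℕ) (l : ℝ) (m : ℕ) : IsPsh O fun x => PhE (X x) k p l m :=
  IsPsh.sum _ fun _ _ => hX.psh_Dl hR hO k p _

end Crest.Agent.X261.Two
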