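import Crest.Agent.X261.Two.Sel

/-!
# Row 261, package TWO (helper15), file `SelN`

The functional `JN` of finitely many shifted constraint families,
`JN = inf ∑ D (f i) - D (max (f i₀, -s, max_i (f i - t i)))`, is plurisubharmonic.
-/

set_option autoImplicit false
set_option linter.dupNamespace false

open Set Filter Topology Metric MeasureTheory

noncomputable section

namespace Crest.Agent.X261.Two

open Crest.Agent.R275.FL884 (DiscIn)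
open Crest.Agent.X261.Psh

section mx

variable {M ι : Type*}

/-- `max (b, max_{i ∈ A} g i)` -/
def fsup (A : Finset ι) (b : M → ℝ) (g : ι → M → ℝ) : M → ℝ := A.fold (· ⊔ ·) b g

theorem fsup_ind {X : Type*} (P : (X → M → ℝ) → Prop) (A : Finset ι) {b : X → M → ℝ}
    {g : ι → X → M → ℝ} (h0 : P b) (h1 : ∀ i V, P V → P fun w => V w ⊔ g i w) :
    P fun w => fsup A (b w) fun i => g i w := by
  classical
  induction A using Finset.induction_on with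
  | empty => simpa [fsup] using h0
  | insert a A ha ih =>
    simp only [fsup, Finset.fold_insert ha]
    have := h1 a _ ih
    simp only [fsup] at this
    simpa only [sup_comm] using this

theorem fsup_le_iff {A : Finset ι} {b u : M → ℝ} {g : ι → M → ℝ} :
    fsup A b g ≤ u ↔ b ≤ u ∧ ∀ i ∈ A, g i ≤ u := by
  classical
  induction A using Finset.induction_on with
  | empty => simp [fsup]
  | insert a A ha ih =>
    simp only [fsup, Finset.fold_insert ha, sup_le_iff, Finset.forall_mem_insert] at ih ⊢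
    rw [ih]; tauto

variable [Fintype ι]

/-- the smallest common background -/
def mxN (i₀ : ι) (f : ι → M → ℝ) (t : ι → ℝ) (s : ℝ) : M → ℝ :=
  fsup Finset.univ (f i₀ ⊔ fun _ => -s) fun i x => f i x - t i

theorem mxN_le_iff {i₀ : ι} {f : ι → M → ℝ} {t : ι → ℝ} {s : ℝ} {u : M → ℝ} :
    mxN i₀ f t s ≤ u ↔ f i₀ ≤ u ∧ (∀ x, -s ≤ u x) ∧ ∀ i x, f i x - t i ≤ u x := by
  simp only [mxN, fsup_le_iff, sup_le_iff, Finset.mem_univ, true_imp_iff, and_assoc]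
  rfl

theorem le_mxN (i₀ : ι) (f : ι → M → ℝ) (t : ι → ℝ) (s : ℝ) :
    f i₀ ≤ mxN i₀ f t s ∧ (∀ x, -s ≤ mxN i₀ f t s x) ∧ ∀ i x, f i x - t i ≤ mxN i₀ f t s x :=
  mxN_le_iff.1 le_rfl

theorem mxN_le_add {i₀ : ι} {f f' : ι → M → ℝ} {t t' : ι → ℝ} {s s' ε : ℝ}
    (hf : ∀ i x, f i x ≤ f' i x + ε) (ht : ∀ i, t' i ≤ t i + ε) (hs : s' ≤ s + ε) (hε : 0 ≤ ε)
    (x : M) : mxN i₀ f t s x ≤ mxN i₀ f' t' s' x + 2 * ε := by
  obtain ⟨h1, h2, h3⟩ := le_mxN i₀ f' t' s'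
  refine (mxN_le_iff (u := fun x => mxN i₀ f' t' s' x + 2 * ε)).2
    ⟨fun y => ?_, fun y => ?_, fun i y => ?_⟩ x
  · have := h1 y; have := hf i₀ y; simp only; linarith
  · have := h2 y; linarith
  · have := h3 i y; have := hf i y; have := ht i; linarith

theorem mxN_mono {i₀ : ι} {f f' : ι → M → ℝ} (hf : ∀ i, f i ≤ f' i) (t : ι → ℝ) (s : ℝ) :
    mxN i₀ f t s ≤ mxN i₀ f' t s := fun x => by
  simpa using mxN_le_add (i₀ := i₀) (f := f) (f' := f') (t := t) (t' := t) (s := s) (s' := s)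
    (ε := 0) (fun i x => by simpa using hf i x) (by simp) (by simp) le_rfl x

theorem UC.mxN {κ : Type*} {l : Filter κ} (i₀ : ι) {f : κ → ι → M → ℝ} {f₀ : ι → M → ℝ}
    {t : κ → ι → ℝ} {t₀ : ι → ℝ} {s : κ → ℝ} {s₀ : ℝ} (hf : ∀ i, UC l (fun k => f k i) (f₀ i))
    (ht : ∀ i, Tendsto (fun k => t k i) l (𝓝 (t₀ i))) (hs : Tendsto s l (𝓝 s₀)) :
    UC l (fun k => mxN i₀ (f k) (t k) (s k)) (mxN i₀ f₀ t₀ s₀) := fun ε hε => by
  have h2 := half_pos hε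
  filter_upwards [eventually_all.2 fun i => hf i _ h2,
    eventually_all.2 fun i => Metric.tendsto_nhds.1 (ht i) _ h2,
    Metric.tendsto_nhds.1 hs _ h2] with k h3 h4 h5 x
  simp only [Real.dist_eq, abs_lt, abs_le] at h3 h4 h5
  have e1 := mxN_le_add (i₀ := i₀) (f := f k) (f' := f₀) (t := t k) (t' := t₀) (s := s k)
    (s' := s₀) (ε := ε / 2) (fun i y => by linarith [(h3 i y).2]) (fun i => by linarith [(h4 i).1])
    (by linarith [h5.1]) h2.le x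
  have e2 := mxN_le_add (i₀ := i₀) (f := f₀) (f' := f k) (t := t₀) (t' := t k) (s := s₀)
    (s' := s k) (ε := ε / 2) (fun i y => by linarith [(h3 i y).1])
    (fun i => by linarith [(h4 i).2]) (by linarith [h5.2]) h2.le x
  exact abs_le.2 ⟨by linarith, by linarith⟩

end mx

variable {M : Type*} [TopologicalSpace M] {ι : Type*} [Fintype ι]

namespace DS

variable (S : DS M)

/-- the many-pole value -/
def valN (i₀ : ι) (f : ι → M → ℝ) (t : ι → ℝ) (s : ℝ) : ℝ :=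
  ∑ i, S.D (f i) - S.D (mxN i₀ f t s)

/-- the many-pole functional -/
def JN (i₀ : ι) (F : ι → Set (M → ℝ)) (t : ι → ℝ) (s : ℝ) : ℝ :=
  sInf ((fun f => S.valN i₀ f t s) '' univ.pi F)

variable {S} {i₀ : ι} {f : ι → M → ℝ} {t : ι → ℝ} {s : ℝ} {F : ι → Set (M → ℝ)}

theorem mxN_mem (hf : ∀ i, f i ∈ S.Q) (ht : ∀ i, 0 ≤ t i) (hs : 0 ≤ s) : mxN i₀ f t s ∈ S.Q :=
  fsup_ind (X := Unit) (fun V => V () ∈ S.Q) Finset.univ (b := fun _ => f i₀ ⊔ fun _ => -s)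
    (g := fun i _ x => f i x - t i) (S.tr_mem _ (hf i₀) s hs)
    fun i _ hV => S.maxs_mem _ (hf i) _ hV _ (ht i)

theorem SB.mxN {K : Set M} {T : ℝ} (hf : ∀ i, f i ∈ S.Q) (ht : ∀ i, 0 ≤ t i) (hs : 0 ≤ s)
    (h : SB K T (f i₀)) : SB K T (mxN i₀ f t s) :=
  ⟨fun x hx => le_antisymm (S.nonpos _ (mxN_mem hf ht hs) x)
    ((h.1 x hx).ge.trans ((le_mxN i₀ f t s).1 x)), fun x => (h.2 x).trans ((le_mxN i₀ f t s).1 x)⟩

theorem valN_nonneg (hf : ∀ i, f i ∈ S.Q) (ht : ∀ i, 0 ≤ t i) (hs : 0 ≤ s) :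
    0 ≤ S.valN i₀ f t s := by
  have h1 := S.anti _ (hf i₀) _ (mxN_mem hf ht hs) (le_mxN i₀ f t s).1
  have h2 := Finset.single_le_sum (f := fun i => S.D (f i)) (fun i _ => D_nonneg (hf i))
    (Finset.mem_univ i₀)
  unfold valN; linarith

theorem valN_le (hf : ∀ i, f i ∈ S.Q) (ht : ∀ i, 0 ≤ t i) (hs : 0 ≤ s) :
    S.valN i₀ f t s ≤ ∑ i, S.D (f i) := by
  have := D_nonneg (mxN_mem (i₀ := i₀) hf ht hs)
  unfold valN; linarith

theorem JN_le (hF : ∀ i, F i ⊆ S.Q) (ht : ∀ i, 0 ≤ t i) (hs : 0 ≤ s) (hf : ∀ i, f i ∈ F i) :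
    S.JN i₀ F t s ≤ S.valN i₀ f t s :=
  csInf_le ⟨0, by rintro _ ⟨g, hg, rfl⟩; exact valN_nonneg (fun i => hF i (hg i trivial)) ht hs⟩
    ⟨f, fun i _ => hf i, rfl⟩

theorem le_JN (hne : ∀ i, (F i).Nonempty) {c : ℝ}
    (h : ∀ f : ι → M → ℝ, (∀ i, f i ∈ F i) → c ≤ S.valN i₀ f t s) : c ≤ S.JN i₀ F t s :=
  le_csInf ((univ_pi_nonempty_iff.2 hne).image _)
    (by rintro _ ⟨g, hg, rfl⟩; exact h g fun i => hg i trivial)

theorem exists_lt_JN (hne : ∀ i, (F i).Nonempty) {c : ℝ} (h : S.JN i₀ F t s < c) :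
    ∃ f : ι → M → ℝ, (∀ i, f i ∈ F i) ∧ S.valN i₀ f t s < c := by
  obtain ⟨_, ⟨g, hg, rfl⟩, h'⟩ := exists_lt_of_csInf_lt ((univ_pi_nonempty_iff.2 hne).image _) h
  exact ⟨g, fun i => hg i trivial, h'⟩

theorem tendsto_DN {κ : Type*} {l : Filter κ} {K : Set M} (hK : IsCompact K) {T : ℝ} (i₀ : ι)
    {f : κ → ι → M → ℝ} {f₀ : ι → M → ℝ} {t : κ → ι → ℝ} {t₀ : ι → ℝ} {s : κ → ℝ} {s₀ : ℝ}
    (h : ∀ᶠ k in l, (∀ i, f k i ∈ S.Q ∧ SB K T (f k i) ∧ 0 ≤ t k i) ∧ 0 ≤ s k)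
    (h₀ : ∀ i, f₀ i ∈ S.Q ∧ SB K T (f₀ i) ∧ 0 ≤ t₀ i) (hs₀ : 0 ≤ s₀)
    (hf : ∀ i, UC l (fun k => f k i) (f₀ i)) (ht : ∀ i, Tendsto (fun k => t k i) l (𝓝 (t₀ i)))
    (hs : Tendsto s l (𝓝 s₀)) :
    Tendsto (fun k => S.D (mxN i₀ (f k) (t k) (s k))) l (𝓝 (S.D (mxN i₀ f₀ t₀ s₀))) :=
  tendsto_D hK (h.mono fun _ hk => ⟨mxN_mem (fun i => (hk.1 i).1) (fun i => (hk.1 i).2.2) hk.2,
      SB.mxN (fun i => (hk.1 i).1) (fun i => (hk.1 i).2.2) hk.2 (hk.1 i₀).2.1⟩)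
    (mxN_mem (fun i => (h₀ i).1) (fun i => (h₀ i).2.2) hs₀)
    (SB.mxN (fun i => (h₀ i).1) (fun i => (h₀ i).2.2) hs₀ (h₀ i₀).2.1) (UC.mxN i₀ hf ht hs)

theorem tendsto_valN {κ : Type*} {l : Filter κ} {K : Set M} (hK : IsCompact K) {T : ℝ} (i₀ : ι)
    {f : κ → ι → M → ℝ} {f₀ : ι → M → ℝ} {t : κ → ι → ℝ} {t₀ : ι → ℝ} {s : κ → ℝ} {s₀ : ℝ}
    (h : ∀ᶠ k in l, (∀ i, f k i ∈ S.Q ∧ SB K T (f k i) ∧ 0 ≤ t k i) ∧ 0 ≤ s k)
    (h₀ : ∀ i, f₀ i ∈ S.Q ∧ SB K T (f₀ i) ∧ 0 ≤ t₀ i) (hs₀ : 0 ≤ s₀)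
    (hf : ∀ i, UC l (fun k => f k i) (f₀ i)) (ht : ∀ i, Tendsto (fun k => t k i) l (𝓝 (t₀ i)))
    (hs : Tendsto s l (𝓝 s₀)) :
    Tendsto (fun k => S.valN i₀ (f k) (t k) (s k)) l (𝓝 (S.valN i₀ f₀ t₀ s₀)) :=
  (tendsto_finsetSum _ fun i _ => tendsto_D hK (h.mono fun _ hk => ⟨(hk.1 i).1, (hk.1 i).2.1⟩)
    (h₀ i).1 (h₀ i).2.1 (hf i)).sub (tendsto_DN hK i₀ h h₀ hs₀ hf ht hs)

theorem JP_mxN {V : ι → ℂ → M → ℝ} (hV : ∀ i, S.JP (V i)) (i₀ : ι) {a b : ι → ℂ} {a₀ b₀ : ℂ}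
    (ht : ∀ i (w : ℂ), ‖w‖ ≤ 1 → 0 ≤ (a i + w * b i).re)
    (hs : ∀ w : ℂ, ‖w‖ ≤ 1 → 0 ≤ (a₀ + w * b₀).re) :
    S.JP fun w => mxN i₀ (fun i => V i w) (fun i => (a i + w * b i).re) (a₀ + w * b₀).re :=
  fsup_ind S.JP Finset.univ (b := fun w => V i₀ w ⊔ fun _ => -(a₀ + w * b₀).re)
    (g := fun i w x => V i w x - (a i + w * b i).re) (S.J_tr _ (hV i₀) _ _ hs)
    fun i W hW => S.J_sups W _ hW (hV i) _ _ (ht i)

end DS

variable {S : DS M}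

theorem exists_localN {X : Type*} {l : Filter X} (i₀ : ι) {F : X → ι → Set (M → ℝ)}
    {F₀ : ι → Set (M → ℝ)} (hF : ∀ i, F₀ i ⊆ S.Q) {b : ι → M → ℝ} (hb : ∀ i, b i ∈ F₀ i)
    (h1 : ∀ i, ∀ f ∈ F₀ i, ∀ θ : ℝ, 0 < θ → θ ≤ 1 → ∀ᶠ e in l, (1 - θ) • f + θ • b i ∈ F e i)
    {t : X → ι → ℝ} {t₀ : ι → ℝ} {s : X → ℝ} {s₀ : ℝ}
    (ht : ∀ i, Tendsto (fun e => t e i) l (𝓝 (t₀ i))) (ht0 : ∀ i, 0 ≤ t₀ i)
    (hs : Tendsto s l (𝓝 s₀)) (hs0 : 0 ≤ s₀) (hts : ∀ᶠ e in l, (∀ i, 0 ≤ t e i) ∧ 0 ≤ s e)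
    {c : ℝ} (hc : S.JN i₀ F₀ t₀ s₀ < c) :
    ∃ f : ι → M → ℝ, (∀ i, f i ∈ S.Q) ∧
      ∀ᶠ e in l, (∀ i, f i ∈ F e i) ∧ S.valN i₀ f (t e) (s e) < c := by
  obtain ⟨f, hf, hlt⟩ := DS.exists_lt_JN (fun i => ⟨b i, hb i⟩) hc
  obtain ⟨K, T, hK, hT, hS⟩ := DS.exists_SB_fin (S := S) (β := Sum.elim f b)
    (fun i => by cases i with
      | inl i => exact hF i (hf i)
      | inr i => exact hF i (hb i))
  have hI : ∀ᶠ θ : ℝ in 𝓝[>] 0, 0 < θ ∧ θ ≤ 1 := Ioc_mem_nhdsGT one_pos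
  have hq : ∀ θ : ℝ, 0 < θ ∧ θ ≤ 1 → ∀ i, (1 - θ) • f i + θ • b i ∈ S.Q ∧
      DS.SB K T ((1 - θ) • f i + θ • b i) := fun θ hθ i =>
    ⟨S.convex (hF i (hf i)) (hF i (hb i)) (by linarith [hθ.2]) hθ.1.le (by ring),
      (hS (.inl i)).seg (hS (.inr i)) hθ.1.le hθ.2⟩
  have t1 := DS.tendsto_valN (S := S) (f := fun θ i => (1 - θ) • f i + θ • b i)
    (t := fun _ => t₀) (s := fun _ => s₀) hK i₀
    (hI.mono fun θ hθ => ⟨fun i => ⟨(hq θ hθ i).1, (hq θ hθ i).2, ht0 i⟩, hs0⟩)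
    (fun i => ⟨hF i (hf i), hS (.inl i), ht0 i⟩) hs0
    (fun i => UC.seg (hF i (hf i)) (hF i (hb i))) (fun _ => tendsto_const_nhds) tendsto_const_nhds
  obtain ⟨θ, hθ, hθ'⟩ := (hI.and (t1.eventually (gt_mem_nhds hlt))).exists
  have t2 := DS.tendsto_valN (S := S) (l := l) (f := fun _ i => (1 - θ) • f i + θ • b i) hK i₀
    (hts.mono fun e he => ⟨fun i => ⟨(hq θ hθ i).1, (hq θ hθ i).2, he.1 i⟩, he.2⟩)
    (fun i => ⟨(hq θ hθ i).1, (hq θ hθ i).2, ht0 i⟩) hs0 (fun i => UC.const _ _) ht hs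
  exact ⟨_, fun i => (hq θ hθ i).1, (eventually_all.2 fun i => h1 i _ (hf i) θ hθ.1 hθ.2).and
    (t2.eventually (gt_mem_nhds hθ'))⟩

theorem avg_sum {h : ι → ℂ → ℝ} (hc : ∀ i, Continuous (h i)) :
    Real.circleAverage (fun w => ∑ i, h i w) 0 1 = ∑ i, Real.circleAverage (h i) 0 1 := by
  rw [← Real.circleAverage_sum fun i _ => cint (hc i)]
  congr 1
  funext w
  simp [Finset.sum_apply]

/-- one disc, continuous feasible boundary data -/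
theorem JN_le_avg (i₀ : ι) {κ : Type} [Fintype κ] {β : ι → κ → M → ℝ} (hβ : ∀ i k, β i k ∈ S.Q)
    {ρ : κ → ℂ → ℝ} (hc : ∀ k, Continuous (ρ k)) (h0 : ∀ k w, 0 ≤ ρ k w)
    (h1 : ∀ w, ∑ k, ρ k w = 1) {F : ι → Set (M → ℝ)} (hF : ∀ i, F i ⊆ S.Q)
    (mF : ∀ i V, S.JP V → (∀ w : ℂ, ‖w‖ = 1 → V w ≤ ∑ k, ρ k w • β i k) → V 0 ∈ F i)
    {a b : ι → ℂ} {a₀ b₀ : ℂ} (ht : ∀ i (w : ℂ), ‖w‖ ≤ 1 → 0 ≤ (a i + w * b i).re)
    (hs : ∀ w : ℂ, ‖w‖ ≤ 1 → 0 ≤ (a₀ + w * b₀).re) :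
    Continuous (fun w => S.valN i₀ (fun i => ∑ k, ρ k w • β i k)
      (fun i => max 0 (a i + w * b i).re) (max 0 (a₀ + w * b₀).re)) ∧
    S.JN i₀ F (fun i => (a i).re) a₀.re ≤ Real.circleAverage
      (fun w => S.valN i₀ (fun i => ∑ k, ρ k w • β i k)
        (fun i => max 0 (a i + w * b i).re) (max 0 (a₀ + w * b₀).re)) 0 1 := by
  obtain ⟨K, T, hK, -, s1⟩ := DS.exists_SB_fin (S := S) (β := fun q : ι × κ => β q.1 q.2)
    fun q => hβ q.1 q.2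
  have qf : ∀ i w, ∑ k, ρ k w • β i k ∈ S.Q := fun i w =>
    sum_mem_of S.convex (fun k => h0 k w) (h1 w) fun k _ => hβ i k
  have sf : ∀ i w, DS.SB K T (∑ k, ρ k w • β i k) := fun i w =>
    DS.SB.sum (fun k => s1 (i, k)) (fun k => h0 k w) (h1 w)
  have uf : ∀ i w₀, UC (𝓝 w₀) (fun w => ∑ k, ρ k w • β i k) (∑ k, ρ k w₀ • β i k) := fun i w₀ =>
    UC.sum (hβ i) fun k => (hc k).continuousAt
  have cs : ∀ a b : ℂ, Continuous fun w : ℂ => max 0 (a + w * b).re := fun a b => by fun_prop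
  have c1 : ∀ i, Continuous fun w => S.D (∑ k, ρ k w • β i k) := fun i =>
    continuous_iff_continuousAt.2 fun w₀ => DS.tendsto_D hK
      (Eventually.of_forall fun w => ⟨qf i w, sf i w⟩) (qf i w₀) (sf i w₀) (uf i w₀)
  have c2 : Continuous fun w => ∑ i, S.D (∑ k, ρ k w • β i k) :=
    continuous_finsetSum _ fun i _ => c1 i
  have c3 : Continuous fun w => S.D (mxN i₀ (fun i => ∑ k, ρ k w • β i k)
      (fun i => max 0 (a i + w * b i).re) (max 0 (a₀ + w * b₀).re)) :=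
    continuous_iff_continuousAt.2 fun w₀ => DS.tendsto_DN hK i₀
      (Eventually.of_forall fun w => ⟨fun i => ⟨qf i w, sf i w, le_max_left _ _⟩, le_max_left _ _⟩)
      (fun i => ⟨qf i w₀, sf i w₀, le_max_left _ _⟩) (le_max_left _ _) (fun i => uf i w₀)
      (fun i => (cs _ _).continuousAt) (cs _ _).continuousAt
  refine ⟨c2.sub c3, le_of_forall_pos_le_add fun ε hε => ?_⟩
  have hN : (0 : ℝ) < Fintype.card ι := Nat.cast_pos.2 (Fintype.card_pos_iff.2 ⟨i₀⟩)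
  choose V hV hV1 hV2 using fun i => S.J_ex κ (β i) ρ (hβ i) hc h0 h1 _ (div_pos hε hN)
  have hΦ := DS.JP_mxN hV i₀ ht hs
  have h3 := S.J_sub _ hΦ _ c3.fun_neg fun w hw => by
    refine neg_le_neg (S.anti _ (S.J_mem _ hΦ w hw.le) _
      (DS.mxN_mem (fun i => qf i w) (fun i => le_max_left _ _) (le_max_left _ _)) ?_)
    simp only [max_eq_right (hs w hw.le), fun i => max_eq_right (ht i w hw.le)]
    exact mxN_mono (fun i => hV1 i w hw) _ _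
  have h4 := DS.JN_le (i₀ := i₀) hF (t := fun i => (a i).re) (s := a₀.re)
    (fun i => by simpa using ht i 0 (by simp)) (by simpa using hs 0 (by simp))
    fun i => mF i _ (hV i) (hV1 i)
  have h5 := Finset.sum_le_sum fun i (_ : i ∈ Finset.univ) => hV2 i
  rw [Finset.sum_add_distrib, ← avg_sum c1, Finset.sum_const, Finset.card_univ, nsmul_eq_mul,
    mul_div_cancel₀ _ hN.ne'] at h5
  simp only [DS.valN, sub_eq_add_neg] at h4 ⊢
  rw [Real.circleAverage_fun_add (cint c2) (cint c3.fun_neg)]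
  simp only [zero_mul, add_zero] at h3
  linarith

variable {E : Type*} [NormedAddCommGroup E] [NormedSpace ℂ E]

theorem usc_JN (i₀ : ι) {O : Set E} {F : ι → E → Set (M → ℝ)} (hF : ∀ i, Fam S O (F i))
    {t : ι → E → ℝ} {s : E → ℝ} (ht : ∀ i, Continuous (t i)) (hs : Continuous s)
    (ht0 : ∀ i, ∀ e ∈ O, 0 ≤ t i e) (hs0 : ∀ e ∈ O, 0 ≤ s e) :
    UpperSemicontinuousOn (fun e => S.JN i₀ (fun i => F i e) (fun i => t i e) (s e)) O := by
  intro e₀ he₀ c hc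
  choose b b1 b2 using fun i =>
    (hF i).strict {e₀} (singleton_subset_iff.2 he₀) isCompact_singleton
  obtain ⟨f, -, h⟩ := exists_localN (l := 𝓝[O] e₀) i₀ (F := fun e i => F i e)
    (fun i => (hF i).sub _ he₀) (fun i => b1 i _ rfl)
    (fun i f hf θ h0 h1 => (b2 i _ rfl f hf θ h0 h1).filter_mono nhdsWithin_le_nhds)
    (t := fun e i => t i e) (fun i => (ht i).continuousWithinAt) (fun i => ht0 i _ he₀)
    hs.continuousWithinAt (hs0 _ he₀)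
    (eventually_nhdsWithin_of_forall fun e he => ⟨fun i => ht0 i e he, hs0 e he⟩) hc
  filter_upwards [h, self_mem_nhdsWithin] with e he heO
  exact (DS.JN_le (fun i => (hF i).sub e heO) (fun i => ht0 i e heO) (hs0 e heO) he.1).trans_lt
    he.2

/-- **the many-pole functional is plurisubharmonic** -/
theorem psh_JN (i₀ : ι) {O : Set E} {F : ι → E → Set (M → ℝ)} (hF : ∀ i, Fam S O (F i))
    (c : ι → ℂ) (L : ι → E →L[ℂ] ℂ) (c₀ : ℂ) (L₀ : E →L[ℂ] ℂ)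
    (ht0 : ∀ i, ∀ e ∈ O, 0 ≤ (c i + L i e).re) (hs0 : ∀ e ∈ O, 0 ≤ (c₀ + L₀ e).re) :
    IsPsh O fun e =>
      (S.JN i₀ (fun i => F i e) (fun i => (c i + L i e).re) (c₀ + L₀ e).re : EReal) := by
  refine ⟨fun e he y hy => ?_, fun _ _ => EReal.coe_lt_top _, Sub.of_lt fun z v hz g hg hlt => ?_⟩
  · obtain ⟨b, h1, h2⟩ := EReal.lt_iff_exists_real_btwn.1 hy
    filter_upwards [usc_JN i₀ hF (t := fun i e => (c i + L i e).re) (fun i => by fun_prop)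
      (by fun_prop) ht0 hs0 e he b (EReal.coe_lt_coe_iff.1 h1)] with x hx
    exact (EReal.coe_lt_coe_iff.2 hx).trans h2
  have hd := continuous_disc z v
  have hK : IsCompact ((fun w : ℂ => z + w • v) '' sphere 0 1) := (isCompact_sphere _ _).image hd
  have hKO := image_subset_iff.2 (mapsTo_sphere hz)
  choose bF b1 b2 using fun i => (hF i).strict _ hKO hK
  have mK : ∀ w : ℂ, ‖w‖ = 1 → z + w • v ∈ (fun w : ℂ => z + w • v) '' sphere 0 1 :=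
    fun w hw => ⟨w, by simpa using hw, rfl⟩
  have eL : ∀ (c : ℂ) (L : E →L[ℂ] ℂ) (w : ℂ), c + L (z + w • v) = (c + L z) + w * L v :=
    fun c L w => by rw [map_add, map_smul, smul_eq_mul, add_assoc]
  have htd : ∀ i (w : ℂ), ‖w‖ ≤ 1 → 0 ≤ ((c i + L i z) + w * L i v).re := fun i w hw =>
    eL (c i) (L i) w ▸ ht0 i _ (hz w hw)
  have hsd : ∀ w : ℂ, ‖w‖ ≤ 1 → 0 ≤ ((c₀ + L₀ z) + w * L₀ v).re := fun w hw =>
    eL c₀ L₀ w ▸ hs0 _ (hz w hw)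
  have cs : ∀ a b : ℂ, Continuous fun w : ℂ => max 0 (a + w * b).re := fun a b => by fun_prop
  have loc : ∀ w₀ : ℂ, ‖w₀‖ = 1 → ∃ f : ι → M → ℝ, (∀ i, f i ∈ S.Q) ∧ ∃ r > 0,
      ∀ w ∈ ball w₀ r, (∀ i, f i ∈ F i (z + w • v)) ∧
        S.valN i₀ f (fun i => max 0 ((c i + L i z) + w * L i v).re)
          (max 0 ((c₀ + L₀ z) + w * L₀ v).re) < g w := fun w₀ hw₀ => by
    have hO := disc_circle hz hw₀
    obtain ⟨a, h1, h2⟩ := exists_between (EReal.coe_lt_coe_iff.1 (hlt w₀ hw₀))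
    obtain ⟨f, hf, h⟩ := exists_localN (l := 𝓝 w₀) i₀ (F := fun w i => F i (z + w • v))
      (fun i => (hF i).sub _ hO) (fun i => b1 i _ (mK _ hw₀))
      (fun i f hf θ h0 h1 => hd.continuousAt.eventually (b2 i _ (mK _ hw₀) f hf θ h0 h1))
      (t := fun w i => max 0 ((c i + L i z) + w * L i v).re)
      (fun i => (cs _ _).continuousAt) (fun i => le_max_left _ _)
      (cs (c₀ + L₀ z) (L₀ v)).continuousAt (le_max_left _ _)
      (Eventually.of_forall fun _ => ⟨fun _ => le_max_left _ _, le_max_left _ _⟩) (c := a)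
      (by
        simp only [max_eq_right (hsd w₀ hw₀.le), fun i => max_eq_right (htd i w₀ hw₀.le)]
        simpa only [eL] using h1)
    obtain ⟨r, hr, hr'⟩ := Metric.eventually_nhds_iff_ball.1
      (h.and (hg.continuousAt.eventually (lt_mem_nhds h2)))
    exact ⟨f, hf, r, hr, fun w hw => ⟨(hr' w hw).1.1, (hr' w hw).1.2.trans (hr' w hw).2⟩⟩
  choose! f hf r hr hloc using loc
  obtain ⟨t, ht1, ht2⟩ := (isCompact_sphere (0 : ℂ) 1).elim_nhds_subcover (fun w => ball w (r w))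
    fun w hw => ball_mem_nhds w (hr w (by simpa using hw))
  set cc : Fin t.card → ℂ := fun j => (t.equivFin.symm j : ℂ) with hcc
  have hcc1 : ∀ j, ‖cc j‖ = 1 := fun j => by simpa using ht1 _ (t.equivFin.symm j).2
  have hcov : ∀ w : ℂ, ‖w‖ = 1 → ∃ j, w ∈ ball (cc j) (r (cc j)) := fun w hw => by
    obtain ⟨x, hx, hw'⟩ := mem_iUnion₂.1 (ht2 (show w ∈ sphere (0 : ℂ) 1 by simpa using hw))
    exact ⟨t.equivFin ⟨x, hx⟩, by simpa [hcc] using hw'⟩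
  obtain ⟨ρ, r1, r2, r3, r4, r5⟩ := exists_weights cc fun j => r (cc j)
  have h1 : ‖(1 : ℂ)‖ = 1 := by simp
  set β : ι → Option (Fin t.card) → M → ℝ := fun i k => k.elim (bF i) fun j => f (cc j) i with hβ
  have qβ : ∀ i k, β i k ∈ S.Q := fun i k => by
    cases k with
    | none => exact (hF i).sub _ (disc_circle hz h1) (b1 i _ (mK _ h1))
    | some j => exact hf _ (hcc1 j) i
  have fβ : ∀ i N (w : ℂ), ‖w‖ = 1 → ∑ k, ρ N k w • β i k ∈ F i (z + w • v) := fun i N w hw =>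
    sum_mem_of ((hF i).convex _ (disc_circle hz hw)) (fun k => r2 N k w) (r3 N w) fun k hk => by
      cases k with
      | none => exact b1 i _ (mK _ hw)
      | some j => exact (hloc _ (hcc1 j) w (r4 N j w hk)).1 i
  set Val : ℕ → ℂ → ℝ := fun N w => S.valN i₀ (fun i => ∑ k, ρ N k w • β i k)
    (fun i => max 0 ((c i + L i z) + w * L i v).re) (max 0 ((c₀ + L₀ z) + w * L₀ v).re)
    with hVal
  have key : ∀ N, Continuous (Val N) ∧ S.JN i₀ (fun i => F i z) (fun i => (c i + L i z).re)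
      (c₀ + L₀ z).re ≤ Real.circleAverage (Val N) 0 1 := fun N =>
    JN_le_avg i₀ qβ (r1 N) (r2 N) (r3 N) (fun i => (hF i).sub _ hz.center)
      (fun i V hV h => (hF i).mp z v hz V hV fun w hw => ⟨_, fβ i N w hw, h w hw⟩) htd hsd
  obtain ⟨B, hB⟩ : ∃ B : ℝ, ∀ N w, Val N w ≤ B := by
    obtain ⟨K, T, hK, hT, s1⟩ := DS.exists_SB_fin (S := S)
      (β := fun q : ι × Option (Fin t.card) => β q.1 q.2) fun q => qβ q.1 q.2
    obtain ⟨C, -, hC⟩ := S.lip K hK T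
    refine ⟨∑ _i : ι, C * T, fun N w => ?_⟩
    have q1 := fun i => sum_mem_of S.convex (fun k => r2 N k w) (r3 N w) fun k _ => qβ i k
    refine (DS.valN_le q1 (fun _ => le_max_left _ _) (le_max_left _ _)).trans
      (Finset.sum_le_sum fun i _ => ?_)
    have su := DS.SB.sum (fun k => s1 (i, k)) (fun k => r2 N k w) (r3 N w)
    have := hC _ (q1 i) 0 S.zero_mem su.1 (fun _ _ => rfl) su.2 (fun _ => by simpa using hT) T hT
      fun x => by have := su.2 x; simp only [Pi.zero_apply]; linarith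
    rwa [S.D_zero, zero_add] at this
  obtain ⟨B', hB'⟩ := (isCompact_sphere (0 : ℂ) 1).exists_bound_of_continuousOn hg.continuousOn
  have hc' : ∀ N, Continuous fun w => max (Val N w - g w) 0 := fun N =>
    ((key N).1.sub hg).max continuous_const
  have t0 := tendsto_avg_zero hc' (C := max (B + B') 0) (fun N w hw => by
      rw [abs_of_nonneg (le_max_right _ _)]
      have := (abs_le.1 (hB' w (by simpa using hw))).1
      exact max_le_max (by linarith [hB N w]) le_rfl)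
    (fun w hw => by
      obtain ⟨j, hj, hN⟩ := r5 w (hcov w hw)
      refine tendsto_const_nhds.congr' (hN.mono fun N hN => ?_)
      have e1 : (fun i => ∑ k, ρ N k w • β i k) = f (cc j) := by funext i; simp [hN, hβ]
      have := (hloc _ (hcc1 j) w hj).2
      simp only [hVal, e1]
      exact (max_eq_right (by linarith)).symm)
  refine EReal.coe_le_coe_iff.2 (ge_of_tendsto' (f := fun N => Real.circleAverage g 0 1 +
    Real.circleAverage (fun w => max (Val N w - g w) 0) 0 1) (x := atTop)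
    (by simpa using t0.const_add (Real.circleAverage g 0 1)) fun N => (key N).2.trans ?_)
  rw [← Real.circleAverage_fun_add (cint hg) (cint (hc' N))]
  exact avg_mono (key N).1 (hg.add (hc' N)) fun w _ => by
    have := le_max_left (Val N w - g w) 0
    linarith

end Crest.Agent.X261.Two
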